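import Mathlib.Analysis.Distribution.TestFunction
import Mathlib.Analysis.Calculus.Gradient.Basic
import Mathlib.Analysis.InnerProductSpace.Orthonormal
import Mathlib.MeasureTheory.Measure.Haar.InnerProductSpace
import Mathlib.MeasureTheory.Integral.Bochner.Basic

/-!
# P071: the objects of the question, in a Euclidean space `E` with its Lebesgue measure

The theorem takes `E` of dimension two, for instance `EuclideanSpace ℝ (Fin 2)`.
-/

open MeasureTheory TopologicalSpace Topology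
open scoped Distributions Gradient RealInnerProductSpace

namespace Vale.Agent.N071T

variable {E : Type} [NormedAddCommGroup E] [InnerProductSpace ℝ E] [FiniteDimensional ℝ E]
  [CompleteSpace E] [MeasurableSpace E] [BorelSpace E]

/-- `v ∈ H¹(Ω)` with weak gradient `G`: both are in `L²(Ω)`, and `∫ v ∇φ = -∫ φ G` for all test
functions `φ ∈ 𝓓(Ω)` (smooth, with compact support in `Ω`). -/
structure H1 (Ω : Opens E) (v : E → ℝ) (G : E → E) : Prop where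
  fn : MemLp v 2 (volume.restrict Ω)
  grad : MemLp G 2 (volume.restrict Ω)
  weak : ∀ φ : 𝓓(Ω, ℝ), ∫ x in Ω, v x • ∇ φ x = -∫ x in Ω, φ x • G x

/-- `μ₁(Ω) = inf { ∫ |∇v|² / ∫ v² : 0 ≠ v ∈ H¹(Ω), ∫ v = 0 }`. -/
noncomputable def mu1 (Ω : Opens E) : ℝ :=
  sInf {q : ℝ | ∃ v G, H1 Ω v G ∧ (¬ ∀ᵐ x ∂(volume.restrict Ω), v x = 0) ∧ ∫ x in Ω, v x = 0 ∧
    q = (∫ x in Ω, ‖G x‖ ^ 2) / ∫ x in Ω, v x ^ 2}

/-- `V(Ω)`: the weak solutions of `-Δu = μ₁(Ω) u` in `Ω`, `∂u/∂ν = 0` on `∂Ω`, that is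
`u ∈ H¹(Ω)` and `∫ ⟨∇u, ∇v⟩ = μ₁(Ω) ∫ u v` for all `v ∈ H¹(Ω)`. -/
def V (Ω : Opens E) : Set (E → ℝ) :=
  {u | ∃ G, H1 Ω u G ∧ ∀ v H, H1 Ω v H →
    ∫ x in Ω, ⟪G x, H x⟫ = mu1 Ω * ∫ x in Ω, u x * v x}

/-- Near each boundary point `p`, in the Cartesian coordinates of a suitable orthonormal pair
`e 0, e 1`, the set `Ω` is the region above the graph of a function `g` of the class `C`. -/
def GraphBoundary (C : Set (ℝ → ℝ)) (Ω : Set E) : Prop :=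
  ∀ p ∈ frontier Ω, ∃ U ∈ 𝓝 p, ∃ e : Fin 2 → E, Orthonormal ℝ e ∧ ∃ g ∈ C,
    ∀ x ∈ U, x ∈ Ω ↔ g ⟪x, e 0⟫ < ⟪x, e 1⟫

end Vale.Agent.N071T
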