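import Vale.Agent.N071T.Nodal
import Mathlib.Analysis.Calculus.InverseFunctionTheorem.ContDiff

set_option linter.all false

/-!
# Two independent elements of `V(Ω)` embed `Ω` onto a star-shaped domain
-/

open MeasureTheory Metric Filter Topology Set

namespace Vale.Agent.N071T

open Vale.Agent.P071 Vale.Agent.P071.Lim

variable {Ω : Set ℂ} {u v : ℂ → ℝ}

theorem lh_of_det (ho : IsOpen Ω) (hu : ContDiffOn ℝ 1 u Ω) (hv : ContDiffOn ℝ 1 v Ω)
    (hdet : ∀ x ∈ Ω, px u x * py v x ≠ py u x * px v x) :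
    IsLocalHomeomorph fun x : Ω => (u x, v x) := by
  have h1 : IsLocalHomeomorphOn (fun z => (u z, v z)) Ω := by
    intro x hx
    have hc : ContDiffAt ℝ 1 (fun z => (u z, v z)) x :=
      (hu.prodMk hv).contDiffAt (ho.mem_nhds hx)
    have hud : DifferentiableAt ℝ u x :=
      (hu.differentiableOn (by norm_num)).differentiableAt (ho.mem_nhds hx)
    have hvd : DifferentiableAt ℝ v x :=
      (hv.differentiableOn (by norm_num)).differentiableAt (ho.mem_nhds hx)
    set L : ℂ →L[ℝ] ℝ × ℝ := (fderiv ℝ u x).prod (fderiv ℝ v x) with hL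
    have hinj : Function.Injective L := by
      rw [injective_iff_map_eq_zero]
      intro z hz
      have hz' : z = z.re • (1 : ℂ) + z.im • Complex.I := by
        simp [Complex.re_add_im]
      have e1 : fderiv ℝ u x z = 0 := congrArg Prod.fst hz
      have e2 : fderiv ℝ v x z = 0 := congrArg Prod.snd hz
      rw [hz', map_add, map_smul, map_smul, smul_eq_mul, smul_eq_mul] at e1 e2
      have hd := sub_ne_zero.2 (hdet x hx)
      change z.re * px u x + z.im * py u x = 0 at e1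
      change z.re * px v x + z.im * py v x = 0 at e2
      have r1 : z.re * (px u x * py v x - py u x * px v x) = 0 := by
        linear_combination py v x * e1 - py u x * e2
      have r2 : z.im * (px u x * py v x - py u x * px v x) = 0 := by
        linear_combination px u x * e2 - px v x * e1
      exact Complex.ext ((mul_eq_zero.1 r1).resolve_right hd) ((mul_eq_zero.1 r2).resolve_right hd)
    have hdim : Module.finrank ℝ ℂ = Module.finrank ℝ (ℝ × ℝ) := by simp
    set E : ℂ ≃L[ℝ] ℝ × ℝ :=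
      (LinearMap.linearEquivOfInjective (L : ℂ →ₗ[ℝ] ℝ × ℝ) hinj hdim).toContinuousLinearEquiv
      with hE
    have hEL : (E : ℂ →L[ℝ] ℝ × ℝ) = L := by
      ext z <;> rfl
    have hf : HasFDerivAt (fun z => (u z, v z)) (E : ℂ →L[ℝ] ℝ × ℝ) x := by
      rw [hEL]; exact hud.hasFDerivAt.prodMk hvd.hasFDerivAt
    exact ⟨hc.toOpenPartialHomeomorph _ hf (by norm_num),
      hc.mem_toOpenPartialHomeomorph_source hf (by norm_num), rfl⟩
  have h2 : IsLocalHomeomorph (Subtype.val : Ω → ℂ) :=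
    ho.isOpenEmbedding_subtypeVal.isLocalHomeomorph
  rw [isLocalHomeomorph_iff_isLocalHomeomorphOn_univ] at h2 ⊢
  exact h1.comp h2 fun x _ => x.2

theorem det_ne (ho : IsOpen Ω) (hb : Bornology.IsBounded Ω) (hs : IsSimplyConnected Ω)
    (hT : Tight Ω) (hu : InV Ω u) (hv : InV Ω v) (hc : ContinuousOn u Ω) (hc' : ContinuousOn v Ω)
    (hind : ∀ a b : ℝ, (∀ z ∈ Ω, a * u z + b * v z = 0) → a = 0 ∧ b = 0) :
    ∀ x ∈ Ω, px u x * py v x ≠ py u x * px v x := by
  intro x hx hdet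
  obtain ⟨a, b, hab, h⟩ := NC.jacobian ho hb hs hT hu hv hc hc' hx hdet
  obtain ⟨h1, h2⟩ := hind a b h
  exact hab.elim (fun h => h h1) fun h => h h2

theorem lh (ho : IsOpen Ω) (hb : Bornology.IsBounded Ω) (hs : IsSimplyConnected Ω)
    (hT : Tight Ω) (hu : InV Ω u) (hv : InV Ω v) (hc : ContinuousOn u Ω) (hc' : ContinuousOn v Ω)
    (hind : ∀ a b : ℝ, (∀ z ∈ Ω, a * u z + b * v z = 0) → a = 0 ∧ b = 0) :
    IsLocalHomeomorph fun x : Ω => (u x, v x) :=
  lh_of_det ho ((NC.smooth_of_inV ho hu hc).1.of_le (by norm_num))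
    ((NC.smooth_of_inV ho hv hc').1.of_le (by norm_num)) (det_ne ho hb hs hT hu hv hc hc' hind)

theorem nodal_lin (ho : IsOpen Ω) (hb : Bornology.IsBounded Ω) (hs : IsSimplyConnected Ω)
    (hT : Tight Ω) (hu : InV Ω u) (hv : InV Ω v) (hc : ContinuousOn u Ω) (hc' : ContinuousOn v Ω)
    (hind : ∀ a b : ℝ, (∀ z ∈ Ω, a * u z + b * v z = 0) → a = 0 ∧ b = 0) {a b : ℝ}
    (hab : a ≠ 0 ∨ b ≠ 0) : IsConnected {x ∈ Ω | a * u x + b * v x = 0} := by
  refine (nodal ho hb hs hT (NC.InV.lin hu hv a b)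
    ((continuousOn_const.mul hc).add (continuousOn_const.mul hc')) ?_).2.2
  by_contra hcon
  push Not at hcon
  obtain ⟨h1, h2⟩ := hind a b hcon
  exact hab.elim (fun h => h h1) fun h => h h2

theorem injOn_pair (ho : IsOpen Ω) (hb : Bornology.IsBounded Ω) (hs : IsSimplyConnected Ω)
    (hT : Tight Ω) (hu : InV Ω u) (hv : InV Ω v) (hc : ContinuousOn u Ω) (hc' : ContinuousOn v Ω)
    (hind : ∀ a b : ℝ, (∀ z ∈ Ω, a * u z + b * v z = 0) → a = 0 ∧ b = 0) :
    InjOn (fun z => (u z, v z)) Ω := by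
  intro x hx y hy hxy
  have e1 : u x = u y := congrArg Prod.fst hxy
  have e2 : v x = v y := congrArg Prod.snd hxy
  obtain ⟨a, b, hab, h0⟩ : ∃ a b : ℝ, (a ≠ 0 ∨ b ≠ 0) ∧ a * u x + b * v x = 0 := by
    by_cases h : u x = 0
    · exact ⟨1, 0, Or.inl one_ne_zero, by simp [h]⟩
    · exact ⟨v x, -u x, Or.inr (neg_ne_zero.2 h), by ring⟩
  have hn : 0 < a ^ 2 + b ^ 2 := by
    rcases hab with h | h <;> positivity
  have hL := lh ho hb hs hT (NC.InV.lin hu hv a b) (NC.InV.lin hu hv (-b) a)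
    ((continuousOn_const.mul hc).add (continuousOn_const.mul hc'))
    ((continuousOn_const.mul hc).add (continuousOn_const.mul hc')) (fun α β h => by
      obtain ⟨h1, h2⟩ := hind (α * a - β * b) (α * b + β * a) fun z hz => by
        linear_combination h z hz
      have r1 : α * (a ^ 2 + b ^ 2) = 0 := by linear_combination a * h1 + b * h2
      have r2 : β * (a ^ 2 + b ^ 2) = 0 := by linear_combination a * h2 - b * h1
      exact ⟨(mul_eq_zero.1 r1).resolve_right hn.ne', (mul_eq_zero.1 r2).resolve_right hn.ne'⟩)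
  have hN := (nodal_lin ho hb hs hT hu hv hc hc' hind hab).isPreconnected
  have hN' : IsPreconnected {z : Ω | a * u z + b * v z = 0} := by
    rw [← IsInducing.subtypeVal.isPreconnected_image]
    convert hN using 1
    ext z
    constructor
    · rintro ⟨z, hz, rfl⟩
      exact ⟨z.2, hz⟩
    · rintro ⟨h1, h2⟩
      exact ⟨⟨z, h1⟩, h2, rfl⟩
  have := injOn_axis hL hN' (x₁ := ⟨x, hx⟩) h0 (x₂ := ⟨y, hy⟩) (by
    change a * u y + b * v y = 0
    rw [← e1, ← e2]; exact h0) (by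
    change (a * u x + b * v x, -b * u x + a * v x) = (a * u y + b * v y, -b * u y + a * v y)
    rw [e1, e2])
  exact congrArg Subtype.val this

theorem diffeo (ho : IsOpen Ω) (hb : Bornology.IsBounded Ω) (hs : IsSimplyConnected Ω)
    (hT : Tight Ω) (hu : InV Ω u) (hv : InV Ω v) (hc : ContinuousOn u Ω) (hc' : ContinuousOn v Ω)
    (hind : ∀ a b : ℝ, (∀ z ∈ Ω, a * u z + b * v z = 0) → a = 0 ∧ b = 0) :
    InjOn (fun z => (u z, v z)) Ω ∧ IsOpen ((fun z => (u z, v z)) '' Ω) ∧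
      (0 : ℝ × ℝ) ∈ (fun z => (u z, v z)) '' Ω ∧ StarConvex ℝ 0 ((fun z => (u z, v z)) '' Ω) := by
  have hO : IsOpen ((fun z => (u z, v z)) '' Ω) := by
    have := (lh ho hb hs hT hu hv hc hc' hind).isOpenMap.isOpen_range
    rwa [image_eq_range]
  refine ⟨injOn_pair ho hb hs hT hu hv hc hc' hind, hO, star_of_lines hO fun a b hab => ?_⟩
  have := (nodal_lin ho hb hs hT hu hv hc hc' hind hab).image (fun z => (u z, v z))
    ((hc.prodMk hc').mono fun x hx => hx.1)
  convert this using 1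
  ext q
  constructor
  · rintro ⟨⟨z, hz, rfl⟩, h⟩
    exact ⟨z, ⟨hz, h⟩, rfl⟩
  · rintro ⟨z, ⟨hz, h⟩, rfl⟩
    exact ⟨⟨z, hz, rfl⟩, h⟩

end Vale.Agent.N071T
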