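import Vale.Agent.N071T.Transfer
import Vale.Agent.N071.Quant

set_option linter.all false

/-!
# The results in the Euclidean plane
-/

open MeasureTheory TopologicalSpace Topology Set Filter Metric
open scoped Distributions Gradient RealInnerProductSpace ContDiff ComplexConjugate

namespace Vale.Agent.N071T

open Vale.Agent.P071

variable {E : Type} [NormedAddCommGroup E] [InnerProductSpace ℝ E] [FiniteDimensional ℝ E]
  [CompleteSpace E] [MeasurableSpace E] [BorelSpace E] {Ω : Opens E} (TT : ℂ ≃ₗᵢ[ℝ] E)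

theorem exists_TT (h : Module.finrank ℝ E = 2) : Nonempty (ℂ ≃ₗᵢ[ℝ] E) :=
  ⟨Complex.isometryOfOrthonormal ((stdOrthonormalBasis ℝ E).reindex (finCongr h))⟩

theorem H1_iff {v : E → ℝ} {G : E → E} : H1 Ω v G ↔ H1g (Ω : Set E) v G :=
  ⟨fun h => ⟨h.fn, h.grad, fun φ h1 h2 h3 => h.weak ⟨φ, h1, h2, h3⟩⟩,
    fun h => ⟨h.fn, h.grad, fun φ => h.weak φ φ.contDiff φ.hasCompactSupport φ.tsupport_subset⟩⟩

theorem mu1_eq : mu1 Ω = sInf (Qg (Ω : Set E)) := by
  simp only [mu1, Qg, H1_iff]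

theorem V_eq : V Ω = Vg (Ω : Set E) := by
  simp only [V, Vg, H1_iff, mu1_eq]

theorem mu1_C : mu1 Ω = muOne (TT ⁻¹' (Ω : Set E)) := by
  rw [mu1_eq, ← mu_eq, Qg_comp]

theorem V_toC {u : E → ℝ} (hu : u ∈ V Ω) :
    InV (TT ⁻¹' (Ω : Set E)) (fun z => u (TT z)) := by
  rw [V_eq] at hu
  exact Vg_iff.1 (Vg_comp TT hu)

theorem V_ofC {w : ℂ → ℝ} (hw : InV (TT ⁻¹' (Ω : Set E)) w) :
    (fun x => w (TT.symm x)) ∈ V Ω := by
  have := Vg_comp TT.symm (Vg_iff.2 hw)
  rwa [pre_pre, ← V_eq] at this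

theorem chart {C : Set (ℝ → ℝ)} {S : Set E} (h : GraphBoundary C S) :
    ∀ p ∈ frontier (TT ⁻¹' S), ∃ (e : ℂ) (r s c₁ c₂ : ℝ), ∃ g ∈ C, ‖e‖ = 1 ∧ 0 < r ∧ |s| = 1 ∧
      ∀ z ∈ ball p r, z ∈ TT ⁻¹' S ↔
        g (s * (conj e * (z - p)).re + c₁) - c₂ < (conj e * (z - p)).im := by
  intro p hp
  have hp' : TT p ∈ frontier S := by
    have := TT.toHomeomorph.preimage_frontier S
    have h2 : p ∈ TT.toHomeomorph ⁻¹' frontier S := by rw [this]; exact hp
    exact h2
  obtain ⟨U, hU, e, he, g, hg, hA⟩ := h _ hp'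
  obtain ⟨r, hr, hrU⟩ := Metric.mem_nhds_iff.1 (TT.continuous.continuousAt.preimage_mem_nhds hU)
  set a : ℂ := TT.symm (e 0) with ha
  set b : ℂ := TT.symm (e 1) with hb
  have na : a.re ^ 2 + a.im ^ 2 = 1 := by rw [← normsq, ha, TT.symm.norm_map, he.1 0, one_pow]
  have nb : b.re ^ 2 + b.im ^ 2 = 1 := by rw [← normsq, hb, TT.symm.norm_map, he.1 1, one_pow]
  have hab : a.re * b.re + a.im * b.im = 0 := by
    rw [← inner_C, ha, hb, TT.symm.inner_map_map]
    exact he.2 (by norm_num)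
  have h0 : ∀ z, ⟪TT z, e 0⟫ = z.re * a.re + z.im * a.im := fun z => by
    rw [← inner_C, ha, ← TT.inner_map_map, TT.apply_symm_apply]
  have h1 : ∀ z, ⟪TT z, e 1⟫ = z.re * b.re + z.im * b.im := fun z => by
    rw [← inner_C, hb, ← TT.inner_map_map, TT.apply_symm_apply]
  set s : ℝ := a.re * b.im - a.im * b.re with hs
  have s1 : a.re = s * b.im := by
    rw [hs]; linear_combination (-a.re) * nb + b.re * hab
  have s2 : a.im = -s * b.re := by
    rw [hs]; linear_combination (-a.im) * nb + b.im * hab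
  have s3 : s ^ 2 = 1 := by
    rw [hs]; linear_combination (b.re ^ 2 + b.im ^ 2) * na + nb - (a.re * b.re + a.im * b.im) * hab
  refine ⟨⟨b.im, -b.re⟩, r, s, p.re * a.re + p.im * a.im, p.re * b.re + p.im * b.im, g, hg, ?_, hr,
    ?_, fun z hz => ?_⟩
  · rw [← sq_eq_sq₀ (norm_nonneg _) zero_le_one, normsq]
    linear_combination nb
  · rw [← sq_eq_sq₀ (abs_nonneg _) zero_le_one, sq_abs, s3, one_pow]
  · rw [mem_preimage, hA _ (hrU hz), h0 z, h1 z, sub_lt_iff_lt_add]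
    have e1 : z.re * a.re + z.im * a.im =
        s * (conj (⟨b.im, -b.re⟩ : ℂ) * (z - p)).re + (p.re * a.re + p.im * a.im) := by
      simp only [Complex.mul_re, Complex.conj_re, Complex.conj_im, Complex.sub_re, Complex.sub_im]
      linear_combination (z.re - p.re) * s1 + (z.im - p.im) * s2
    have e2 : z.re * b.re + z.im * b.im =
        (conj (⟨b.im, -b.re⟩ : ℂ) * (z - p)).im + (p.re * b.re + p.im * b.im) := by
      simp only [Complex.mul_im, Complex.conj_re, Complex.conj_im, Complex.sub_re, Complex.sub_im]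
      ring
    rw [← e1, ← e2]

theorem lip_toC {S : Set E} (h : GraphBoundary {g | ∃ L, LipschitzWith L g} S) :
    LipschitzBoundary (TT ⁻¹' S) := by
  intro p hp
  obtain ⟨e, r, s, c₁, c₂, g, ⟨L, hg⟩, he, hr, hs, hz⟩ := chart TT h p hp
  refine ⟨e, r, L, fun t => g (s * t + c₁) - c₂, he, hr, ?_, hz⟩
  refine LipschitzWith.of_dist_le_mul fun x y => ?_
  rw [dist_sub_right]
  refine (hg.dist_le_mul _ _).trans (le_of_eq ?_)
  rw [dist_add_right, Real.dist_eq, Real.dist_eq, ← mul_sub, abs_mul, hs, one_mul]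

theorem cont_toC {S : Set E} (h : GraphBoundary {g | Continuous g} S) :
    ContDomain (TT ⁻¹' S) := by
  intro p hp
  obtain ⟨e, r, s, c₁, c₂, g, hg, he, hr, hs, hz⟩ := chart TT h p hp
  have hg' : Continuous g := hg
  exact ⟨e, r, fun t => g (s * t + c₁) - c₂, he, hr, by fun_prop, hz⟩

theorem open_C : IsOpen (TT ⁻¹' (Ω : Set E)) := Ω.isOpen.preimage TT.continuous

theorem bdd_C {S : Set E} (h : Bornology.IsBounded S) : Bornology.IsBounded (TT ⁻¹' S) :=
  TT.antilipschitz.isBounded_preimage h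

theorem sc_C {S : Set E} (h : IsSimplyConnected S) : IsSimplyConnected (TT ⁻¹' S) :=
  TT.toHomeomorph.isSimplyConnected_preimage.2 h

theorem cont_C {S : Set E} {u : E → ℝ} (h : ContinuousOn u S) :
    ContinuousOn (fun z => u (TT z)) (TT ⁻¹' S) :=
  h.comp TT.continuous.continuousOn fun _ hz => hz

theorem cont_ofC {S : Set E} {w : ℂ → ℝ} (h : ContinuousOn w (TT ⁻¹' S)) :
    ContinuousOn (fun x => w (TT.symm x)) S :=
  h.comp TT.symm.continuous.continuousOn fun x hx => by simpa using hx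

theorem ne_C {S : Set E} {u : E → ℝ} (h : ∃ x ∈ S, u x ≠ 0) :
    ∃ z ∈ TT ⁻¹' S, u (TT z) ≠ 0 := by
  obtain ⟨x, hx, h⟩ := h
  exact ⟨TT.symm x, by simpa using hx, by simpa using h⟩

theorem closure_C (S : Set E) : closure (TT ⁻¹' S) = TT ⁻¹' closure S :=
  (TT.toHomeomorph.preimage_closure S).symm

theorem frontier_C (S : Set E) : frontier (TT ⁻¹' S) = TT ⁻¹' frontier S :=
  (TT.toHomeomorph.preimage_frontier S).symm

theorem conn_ofC {S : Set E} (h : IsConnected (TT ⁻¹' S)) : IsConnected S :=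
  TT.toHomeomorph.isConnected_preimage.1 h

include TT in
/-- Q1 -/
theorem hot_spots (hb : Bornology.IsBounded (Ω : Set E))
    (hs : IsSimplyConnected (Ω : Set E))
    (hL : GraphBoundary {g | ∃ L, LipschitzWith L g} (Ω : Set E)) {u : E → ℝ}
    (hu : u ∈ V Ω) (hc : ContinuousOn u (closure Ω)) (h0 : ∃ x ∈ Ω, u x ≠ 0) :
    ∃ m M : ℝ, IsLeast (u '' frontier Ω) m ∧ IsGreatest (u '' frontier Ω) M ∧
      ∀ x ∈ Ω, m < u x ∧ u x < M := by
  obtain ⟨a, ha, b, hb', h1, h2⟩ := Lim.hot_spots_of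
    (fun _ ho hs hn => RMT.riemann_mapping ho hs hn) (fun _ _ hf => G.disc_thm hf) _ (open_C TT)
    (bdd_C TT hb) (sc_C TT hs) (lip_toC TT hL) _ (V_toC TT hu) (by rw [closure_C TT]; exact cont_C TT hc) (ne_C TT h0)
  rw [frontier_C TT] at ha hb' h1
  refine ⟨u (TT a), u (TT b), ⟨⟨_, ha, rfl⟩, ?_⟩, ⟨⟨_, hb', rfl⟩, ?_⟩, fun x hx => ?_⟩
  · rintro _ ⟨y, hy, rfl⟩
    simpa using (h1 (TT.symm y) (by simpa using hy)).1
  · rintro _ ⟨y, hy, rfl⟩
    simpa using (h1 (TT.symm y) (by simpa using hy)).2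
  · simpa using h2 (TT.symm x) (by simpa using hx)

include TT in
theorem version {u : E → ℝ} (hu : u ∈ V Ω) :
    ∃ w ∈ V Ω, (∀ᵐ x ∂(volume.restrict Ω), w x = u x) ∧ ContinuousOn w Ω ∧
      (GraphBoundary {g | ∃ L, LipschitzWith L g} (Ω : Set E) →
        ContinuousOn w (closure Ω)) := by
  obtain ⟨w, h1, h2, h3, h4⟩ := NC.exists_version (open_C TT) (V_toC TT hu)
  refine ⟨_, V_ofC TT h3, ?_, cont_ofC TT h1, fun hL => cont_ofC TT ?_⟩
  · rw [← ae_comp TT (Ω : Set E) fun x => w (TT.symm x) = u x]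
    simpa using h2
  · rw [← closure_C TT]; exact h4 (lip_toC TT hL)

section C0

variable (hb : Bornology.IsBounded (Ω : Set E)) (hs : IsSimplyConnected (Ω : Set E))
  (hL : GraphBoundary {g | Continuous g} (Ω : Set E))

include TT hb hs hL

theorem mu1_pos : 0 < mu1 Ω := by
  obtain ⟨-, -, -, -, hμ⟩ := NC.setup (open_C TT) (bdd_C TT hb) (sc_C TT hs)
    (tight_of_cont (open_C TT) (bdd_C TT hb) (cont_toC TT hL))
  rwa [mu1_C TT]

theorem exists_V : ∃ u ∈ V Ω, ContinuousOn u Ω ∧ ∃ x ∈ Ω, u x ≠ 0 := by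
  obtain ⟨u, hu, hn⟩ := Quant.exists_inV (open_C TT) (bdd_C TT hb) (sc_C TT hs)
    (tight_of_cont (open_C TT) (bdd_C TT hb) (cont_toC TT hL))
  obtain ⟨w, h1, h2, h3, -⟩ := NC.exists_version (open_C TT) hu
  refine ⟨_, V_ofC TT h3, cont_ofC TT h1, ?_⟩
  by_contra hcon
  push Not at hcon
  have h4 : ∫ z in TT ⁻¹' (Ω : Set E), u z ^ 2 = ∫ _ in TT ⁻¹' (Ω : Set E), (0 : ℝ) := by
    refine integral_congr_ae ?_
    filter_upwards [h2, ae_restrict_mem (open_C TT).measurableSet] with z k1 k2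
    have := hcon (TT z) k2
    rw [TT.symm_apply_apply] at this
    rw [← k1, this]
    norm_num
  rw [hn, integral_zero] at h4
  exact one_ne_zero h4

theorem single {u : E → ℝ} (hu : u ∈ V Ω) (hc : ContinuousOn u Ω) (h0 : ∃ x ∈ Ω, u x ≠ 0) :
    ContDiffOn ℝ 2 u Ω ∧ (∀ x ∈ Ω, ∇ u x ≠ 0) ∧ IsConnected {x ∈ (Ω : Set E) | 0 < u x} ∧
      IsConnected {x ∈ (Ω : Set E) | u x < 0} ∧
      IsConnected {x ∈ (Ω : Set E) | u x = 0} := by
  have hT := tight_of_cont (open_C TT) (bdd_C TT hb) (cont_toC TT hL)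
  obtain ⟨k1, k2, k3⟩ := nodal (open_C TT) (bdd_C TT hb) (sc_C TT hs) hT (V_toC TT hu) (cont_C TT hc) (ne_C TT h0)
  refine ⟨?_, fun x hx h => ?_, conn_ofC TT k1, conn_ofC TT k2, conn_ofC TT k3⟩
  · have := (NC.smooth_of_inV (open_C TT) (V_toC TT hu) (cont_C TT hc)).1.comp
      (TT.symm.contDiff.contDiffOn (s := (Ω : Set E))) (fun x hx => by simpa using hx)
    simpa [Function.comp_def] using this
  · refine NC.no_crit (open_C TT) (bdd_C TT hb) (sc_C TT hs) hT (V_toC TT hu) (cont_C TT hc) (ne_C TT h0)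
      (TT.symm x) (by simpa using hx) ?_
    have := gradient_comp TT u (TT.symm x)
    rw [TT.apply_symm_apply, h, map_zero] at this
    rw [← toDual_gradient, this, map_zero]

theorem pair {u v : E → ℝ} (hu : u ∈ V Ω) (hv : v ∈ V Ω) (hc : ContinuousOn u Ω)
    (hc' : ContinuousOn v Ω)
    (hind : ∀ a b : ℝ, (∀ x ∈ Ω, a * u x + b * v x = 0) → a = 0 ∧ b = 0) :
    (∀ x ∈ Ω, LinearIndependent ℝ ![∇ u x, ∇ v x]) ∧ InjOn (fun x => (u x, v x)) Ω ∧
      IsOpen ((fun x => (u x, v x)) '' Ω) ∧ (0 : ℝ × ℝ) ∈ (fun x => (u x, v x)) '' Ω ∧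
      StarConvex ℝ 0 ((fun x => (u x, v x)) '' Ω) := by
  have hT := tight_of_cont (open_C TT) (bdd_C TT hb) (cont_toC TT hL)
  have hind' : ∀ a b : ℝ, (∀ z ∈ TT ⁻¹' (Ω : Set E), a * u (TT z) + b * v (TT z) = 0) →
      a = 0 ∧ b = 0 := fun a b h => hind a b fun x hx => by
    simpa using h (TT.symm x) (by simpa using hx)
  obtain ⟨k1, k2, k3, k4⟩ := diffeo (open_C TT) (bdd_C TT hb) (sc_C TT hs) hT (V_toC TT hu) (V_toC TT hv)
    (cont_C TT hc) (cont_C TT hc') hind'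
  have him : (fun z => (u (TT z), v (TT z))) '' (TT ⁻¹' (Ω : Set E)) =
      (fun x => (u x, v x)) '' Ω := by
    rw [← image_image (fun x => (u x, v x)) TT, image_preimage_eq _ TT.surjective]
  rw [him] at k2 k3 k4
  refine ⟨fun x hx => ?_, fun x hx y hy hxy => ?_, k2, k3, k4⟩
  · have hd := det_ne (open_C TT) (bdd_C TT hb) (sc_C TT hs) hT (V_toC TT hu) (V_toC TT hv) (cont_C TT hc)
      (cont_C TT hc') hind' (TT.symm x) (by simpa using hx)
    rw [← grad_re, ← grad_re, ← grad_im, ← grad_im, gradient_comp, gradient_comp,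
      TT.apply_symm_apply] at hd
    rw [LinearIndependent.pair_iff]
    intro s t hst
    have h1 : s • TT.symm (∇ u x) + t • TT.symm (∇ v x) = 0 := by
      rw [← map_smul, ← map_smul, ← map_add, hst, map_zero]
    have e1 := congrArg Complex.re h1
    have e2 := congrArg Complex.im h1
    simp only [Complex.add_re, Complex.add_im, Complex.smul_re, Complex.smul_im, smul_eq_mul,
      Complex.zero_re, Complex.zero_im] at e1 e2
    have hd' := sub_ne_zero.2 hd
    constructor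
    · refine (mul_eq_zero.1 ?_).resolve_right hd'
      linear_combination (TT.symm (∇ v x)).im * e1 - (TT.symm (∇ v x)).re * e2
    · refine (mul_eq_zero.1 ?_).resolve_right hd'
      linear_combination (TT.symm (∇ u x)).re * e2 - (TT.symm (∇ u x)).im * e1
  · have := k1 (x₁ := TT.symm x) (by simpa using hx) (x₂ := TT.symm y) (by simpa using hy)
      (by simpa using hxy)
    exact TT.symm.injective this

theorem symm_pair (R : E ≃ₗᵢ[ℝ] E) (h0 : (0 : E) ∈ Ω) (hR : ∀ x, R x ∈ Ω ↔ x ∈ Ω)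
    (hw : ∀ w : E, w ≠ 0 → R w ≠ w ∧ R w ≠ -w) :
    ∃ u ∈ V Ω, ∃ v ∈ V Ω, ContinuousOn u Ω ∧ ContinuousOn v Ω ∧
      ∀ a b : ℝ, (∀ x ∈ Ω, a * u x + b * v x = 0) → a = 0 ∧ b = 0 := by
  obtain ⟨u, hu, hc, hne⟩ := exists_V TT hb hs hL
  have hpre : R ⁻¹' (Ω : Set E) = Ω := Set.ext hR
  have hv : (fun x => u (R x)) ∈ V Ω := by
    rw [V_eq] at hu ⊢
    have := Vg_comp R hu
    rwa [hpre] at this
  refine ⟨u, hu, _, hv, hc, hc.comp R.continuous.continuousOn fun x hx => (hR x).2 hx,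
    fun a b h => ?_⟩
  obtain ⟨hsm, hg, -⟩ := single TT hb hs hL hu hc hne
  have hud : DifferentiableAt ℝ u 0 :=
    (hsm.differentiableOn (by norm_num)).differentiableAt (Ω.isOpen.mem_nhds h0)
  have hvd : DifferentiableAt ℝ (fun x => u (R x)) 0 :=
    DifferentiableAt.comp (g := u) 0 (by rwa [map_zero]) R.differentiableAt
  have h1 : (fun x => a * u x + b * u (R x)) =ᶠ[𝓝 0] fun _ => 0 := by
    filter_upwards [Ω.isOpen.mem_nhds h0] with x hx using h x hx
  have h2 := ((hud.hasFDerivAt.const_mul a).add (hvd.hasFDerivAt.const_mul b)).fderiv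
  have h3 : fderiv ℝ (fun x => a * u x + b * u (R x)) 0 = 0 := by
    rw [h1.fderiv_eq]; simp
  have h4 : a • fderiv ℝ u 0 + b • fderiv ℝ (fun x => u (R x)) 0 = 0 := by
    rw [← h2]; exact h3
  rw [← toDual_gradient, ← toDual_gradient, ← map_smul, ← map_smul, ← map_add,
    map_eq_zero_iff _ (InnerProductSpace.toDual ℝ E).injective, gradient_comp, map_zero] at h4
  set w := ∇ u 0 with hwdef
  have hw0 : w ≠ 0 := hg 0 h0
  have h5 : a • R w + b • w = 0 := by
    have := congrArg R h4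
    rwa [map_add, map_smul, map_smul, R.apply_symm_apply, map_zero] at this
  have h6 : |a| = |b| := by
    have h7 : ‖a • R w‖ = ‖b • w‖ := by
      rw [eq_neg_of_add_eq_zero_left h5, norm_neg]
    rw [norm_smul, norm_smul, R.norm_map] at h7
    exact mul_right_cancel₀ (norm_ne_zero_iff.2 hw0) h7
  have ha : a = 0 := by
    by_contra ha
    rcases abs_eq_abs.1 h6 with h8 | h8
    · rw [← h8, ← smul_add, smul_eq_zero] at h5
      exact (hw w hw0).2 (eq_neg_of_add_eq_zero_left (h5.resolve_left ha))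
    · have h9 : b = -a := by rw [h8, neg_neg]
      rw [h9, neg_smul, ← sub_eq_add_neg, ← smul_sub, smul_eq_zero] at h5
      exact (hw w hw0).1 (sub_eq_zero.1 (h5.resolve_left ha))
  refine ⟨ha, ?_⟩
  rw [ha, abs_zero] at h6
  exact abs_eq_zero.1 h6.symm

end C0

end Vale.Agent.N071T
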