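import Mathlib.Analysis.Complex.BranchLogRoot
import Mathlib.Analysis.Normed.Module.Connected
import Mathlib.Analysis.Convex.Star
import Mathlib.Topology.MetricSpace.HausdorffDistance
import Mathlib.Topology.Order.IntermediateValue
import Mathlib.Tactic

set_option linter.all false

/-!
# Plane topology for the first Neumann eigenspace
-/

open Set Filter Topology Metric

namespace Vale.Agent.N071T

/-- Unicoherence: on a simply connected open set, if `{u ≥ 0}` and `{u ≤ 0}` are preconnected
then so is `{u = 0}`. -/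
theorem zero_preconnected {U : Set ℂ} (ho : IsOpen U) (hs : IsSimplyConnected U) {u : ℂ → ℝ}
    (hc : ContinuousOn u U) (hp : IsPreconnected {x ∈ U | 0 ≤ u x})
    (hn : IsPreconnected {x ∈ U | u x ≤ 0}) : IsPreconnected {x ∈ U | u x = 0} := by
  set N : Set ℂ := {x ∈ U | u x = 0} with hN
  rw [isPreconnected_iff_subset_of_disjoint_closed]
  intro A B hA hB hAB hdis
  by_contra hcon
  rw [not_or] at hcon
  obtain ⟨d, hdN, hdA⟩ := not_subset.1 hcon.1
  obtain ⟨c, hcN, hcB⟩ := not_subset.1 hcon.2
  have hcA : c ∈ A := (hAB hcN).resolve_right hcB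
  have hdB : d ∈ B := (hAB hdN).resolve_left hdA
  set C : Set ℂ := N ∩ A with hC
  set D : Set ℂ := N ∩ B with hD
  have hCne : C.Nonempty := ⟨c, hcN, hcA⟩
  have hDne : D.Nonempty := ⟨d, hdN, hdB⟩
  -- points of `U` in the closure of `N` are in `N`
  have hclN : ∀ x ∈ U, x ∈ closure N → x ∈ N := by
    intro x hx hxc
    refine ⟨hx, ?_⟩
    by_contra hne
    have h1 : ∀ᶠ y in 𝓝 x, u y ≠ 0 := (hc.continuousAt (ho.mem_nhds hx)).eventually_ne hne
    obtain ⟨y, hy1, hy2⟩ := mem_closure_iff_nhds.1 hxc _ h1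
    exact hy1 hy2.2
  have hsum : ∀ x ∈ U, 0 < infDist x C + infDist x D := by
    intro x hx
    by_contra hle
    have h1 := infDist_nonneg (x := x) (s := C)
    have h2 := infDist_nonneg (x := x) (s := D)
    have h3 : infDist x C = 0 := by linarith
    have h4 : infDist x D = 0 := by linarith
    have h5 : x ∈ closure C := (mem_closure_iff_infDist_zero hCne).2 h3
    have h6 : x ∈ closure D := (mem_closure_iff_infDist_zero hDne).2 h4
    have h7 : x ∈ N := hclN x hx (closure_mono inter_subset_left h5)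
    have h8 : x ∈ A := hA.closure_subset (closure_mono inter_subset_right h5)
    have h9 : x ∈ B := hB.closure_subset (closure_mono inter_subset_right h6)
    have : x ∈ N ∩ (A ∩ B) := ⟨h7, h8, h9⟩
    rw [hdis] at this
    exact this
  set h : ℂ → ℝ := fun x => (infDist x D - infDist x C) / (infDist x C + infDist x D) with hh
  have hhc : ContinuousOn h U :=
    ((continuous_infDist_pt D).sub (continuous_infDist_pt C)).continuousOn.div
      ((continuous_infDist_pt C).add (continuous_infDist_pt D)).continuousOn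
      fun x hx => (hsum x hx).ne'
  have hhC : ∀ x ∈ C, h x = 1 := by
    intro x hx
    have h1 := hsum x hx.1.1
    have h2 : infDist x C = 0 := infDist_zero_of_mem hx
    simp only [hh]
    rw [h2, zero_add] at h1
    rw [h2, sub_zero, zero_add, div_self h1.ne']
  have hhD : ∀ x ∈ D, h x = -1 := by
    intro x hx
    have h1 := hsum x hx.1.1
    have h2 : infDist x D = 0 := infDist_zero_of_mem hx
    simp only [hh]
    rw [h2, add_zero] at h1
    rw [h2, zero_sub, add_zero, neg_div, div_self h1.ne']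
  have hh0 : ∀ x ∈ U, u x = 0 → h x ≠ 0 := by
    intro x hx hux
    have hxN : x ∈ N := ⟨hx, hux⟩
    rcases hAB hxN with h1 | h1
    · rw [hhC x ⟨hxN, h1⟩]; norm_num
    · rw [hhD x ⟨hxN, h1⟩]; norm_num
  set g : ℂ → ℂ := fun x => (h x : ℂ) + (u x : ℂ) * Complex.I with hg
  have hgc : ContinuousOn g U :=
    (Complex.continuous_ofReal.comp_continuousOn hhc).add
      ((Complex.continuous_ofReal.comp_continuousOn hc).mul continuousOn_const)
  have hgre : ∀ x, (g x).re = h x := fun x => by simp [hg]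
  have hgim : ∀ x, (g x).im = u x := fun x => by simp [hg]
  have hg0 : (0 : ℂ) ∉ g '' U := by
    rintro ⟨x, hx, h0⟩
    have h1 : u x = 0 := by rw [← hgim, h0]; simp
    have h2 : h x = 0 := by rw [← hgre, h0]; simp
    exact hh0 x hx h1 h2
  obtain ⟨f, hfc, hf⟩ := Complex.exists_continuousOn_eqOn_exp_comp hs ho hgc hg0
  -- comparison with an explicit branch on a preconnected piece
  have key : ∀ (S : Set ℂ) (e : ℂ), S ⊆ U → IsPreconnected S → c ∈ S → d ∈ S → e ≠ 0 →
      (∀ x ∈ S, e * g x ∈ Complex.slitPlane) →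
      f d - f c = Complex.log (e * g d) - Complex.log (e * g c) := by
    intro S e hSU hS hcS hdS he hsl
    have h1 : ContinuousOn (fun x => Complex.log (e * g x) + (f c - Complex.log (e * g c))) S :=
      ((continuousOn_const.mul (hgc.mono hSU)).clog hsl).add continuousOn_const
    have h2 := Complex.isCoveringMap_exp.eqOn_of_comp_eqOn hS (hfc.mono hSU) h1 (a := c)
      (fun x hx => ?_) hcS (by ring)
    · have h3 := h2 hdS
      simp only at h3
      rw [h3]; ring
    · apply Subtype.ext
      have e1 : Complex.exp (f x) = g x := hf (hSU hx)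
      have e2 : Complex.exp (f c) = g c := hf (hSU hcS)
      have n1 : e * g x ≠ 0 := Complex.slitPlane_ne_zero (hsl x hx)
      have n2 : e * g c ≠ 0 := Complex.slitPlane_ne_zero (hsl c hcS)
      have n3 : g c ≠ 0 := right_ne_zero_of_mul n2
      simp only [Function.comp_apply]
      rw [Complex.exp_add, Complex.exp_sub, Complex.exp_log n1, Complex.exp_log n2, e1, e2]
      field_simp
  have gc : g c = 1 := by
    simp only [hg]; rw [hhC c ⟨hcN, hcA⟩, hcN.2]; simp
  have gd : g d = -1 := by
    simp only [hg]; rw [hhD d ⟨hdN, hdB⟩, hdN.2]; simp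
  have k1 := key {x ∈ U | 0 ≤ u x} (-Complex.I) (fun x hx => hx.1) hp ⟨hcN.1, hcN.2.ge⟩
    ⟨hdN.1, hdN.2.ge⟩ (neg_ne_zero.2 Complex.I_ne_zero) (by
      intro x hx
      rw [Complex.mem_slitPlane_iff]
      have e1 : (-Complex.I * g x).re = u x := by simp [hgim]
      have e2 : (-Complex.I * g x).im = -h x := by simp [hgre]
      rw [e1, e2]
      rcases hx.2.eq_or_lt with h1 | h1
      · exact Or.inr (neg_ne_zero.2 (hh0 x hx.1 h1.symm))
      · exact Or.inl h1)
  have k2 := key {x ∈ U | u x ≤ 0} Complex.I (fun x hx => hx.1) hn ⟨hcN.1, hcN.2.le⟩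
    ⟨hdN.1, hdN.2.le⟩ Complex.I_ne_zero (by
      intro x hx
      rw [Complex.mem_slitPlane_iff]
      have e1 : (Complex.I * g x).re = -u x := by simp [hgim]
      have e2 : (Complex.I * g x).im = h x := by simp [hgre]
      rw [e1, e2]
      rcases hx.2.eq_or_lt with h1 | h1
      · exact Or.inr (hh0 x hx.1 h1)
      · exact Or.inl (by linarith))
  rw [gc, gd] at k1 k2
  simp only [mul_neg, mul_one, neg_neg, Complex.log_I, Complex.log_neg_I] at k1 k2
  have k3 := k1.symm.trans k2
  have k4 := congrArg Complex.im k3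
  simp at k4
  linarith [Real.pi_pos]

/-- A local homeomorphism into the plane is injective on the preimage of an axis, when this
preimage is preconnected. -/
theorem injOn_axis {X : Type*} [TopologicalSpace X] [T2Space X] {p : X → ℝ × ℝ}
    (hp : IsLocalHomeomorph p) (hN : IsPreconnected {x | (p x).1 = 0}) :
    InjOn p {x | (p x).1 = 0} := by
  classical
  let R : X → X → Prop := fun x y => ∃ (I : Set ℝ) (s : ℝ → X), IsOpen I ∧ I.OrdConnected ∧
    ContinuousOn s I ∧ (∀ t ∈ I, p (s t) = (0, t)) ∧ x ∈ s '' I ∧ y ∈ s '' I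
  have hR : ∀ x ∈ {x | (p x).1 = 0}, ∀ y ∈ {x | (p x).1 = 0}, R x y := by
    intro x hx y hy
    refine hN.induction₂ R (fun x hx => ?_) ?_ ?_ hx hy
    · -- local statement
      set e := hp.localInverseAt x with he
      have h1 : p x ∈ e.source := hp.apply_self_mem_localInverseAt_source
      have hx0 : p x = (0, (p x).2) := Prod.ext hx rfl
      have hcont : Continuous fun t : ℝ => ((0 : ℝ), t) := by fun_prop
      have h2 : IsOpen ((fun t : ℝ => ((0 : ℝ), t)) ⁻¹' e.source) := e.open_source.preimage hcont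
      obtain ⟨r, hr, hball⟩ := Metric.isOpen_iff.1 h2 (p x).2 (by
        show ((0 : ℝ), (p x).2) ∈ e.source
        rw [← hx0]; exact h1)
      have hev1 : ∀ᶠ y in 𝓝 x, y ∈ e.target :=
        e.open_target.mem_nhds hp.self_mem_localInverseAt_target
      have hev2 : ∀ᶠ y in 𝓝 x, (p y).2 ∈ ball (p x).2 r :=
        (continuous_snd.comp hp.continuous).continuousAt.preimage_mem_nhds (ball_mem_nhds _ hr)
      have hmem : ∀ y, (p y).1 = 0 → y ∈ e.target → (p y).2 ∈ ball (p x).2 r →
          y ∈ (fun t : ℝ => e (0, t)) '' ball (p x).2 r := by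
        intro y hy0 hy1 hy2
        refine ⟨(p y).2, hy2, ?_⟩
        have h3 : ((0 : ℝ), (p y).2) = p y := Prod.ext hy0.symm rfl
        simp only
        rw [h3]
        have h4 := e.right_inv hy1
        rwa [he, hp.localInverseAt_symm] at h4
      filter_upwards [nhdsWithin_le_nhds hev1, nhdsWithin_le_nhds hev2, self_mem_nhdsWithin]
        with y hy1 hy2 hy0
      refine ⟨ball (p x).2 r, fun t => e (0, t), isOpen_ball, ?_, ?_, fun t ht => ?_, ?_,
        hmem y hy0 hy1 hy2⟩
      · rw [Real.ball_eq_Ioo]; exact ordConnected_Ioo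
      · exact e.continuousOn.comp hcont.continuousOn hball
      · exact hp.apply_localInverseAt_of_mem (hball ht)
      · exact hmem x hx hp.self_mem_localInverseAt_target (mem_ball_self hr)
    · rintro x y z - - - ⟨I, s, hI, hIo, hs, hps, hx, ⟨t, ht, hyt⟩⟩
        ⟨J, s', hJ, hJo, hs', hps', ⟨t', ht', hyt'⟩, hz⟩
      have htt : t' = t := by
        have h1 := hps t ht
        have h2 := hps' t' ht'
        rw [hyt] at h1
        rw [hyt', h1] at h2
        exact (congrArg Prod.snd h2).symm
      subst htt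
      have heq : EqOn s s' (I ∩ J) :=
        (T2Space.isSeparatedMap p).eqOn_of_comp_eqOn hp.isLocallyInjective
          (hIo.inter hJo).isPreconnected (hs.mono inter_subset_left) (hs'.mono inter_subset_right)
          (fun a ha => by
            simp only [Function.comp_apply]
            rw [hps a ha.1, hps' a ha.2]) ⟨ht, ht'⟩ (hyt.trans hyt'.symm)
      have e1 : EqOn (I.piecewise s s') s I := fun a ha => piecewise_eq_of_mem _ _ _ ha
      have e2 : EqOn (I.piecewise s s') s' J := by
        intro a ha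
        by_cases h : a ∈ I
        · rw [piecewise_eq_of_mem _ _ _ h]; exact heq ⟨h, ha⟩
        · exact piecewise_eq_of_notMem _ _ _ h
      refine ⟨I ∪ J, I.piecewise s s', hI.union hJ, ?_, ?_, ?_, ?_, ?_⟩
      · exact isPreconnected_iff_ordConnected.1
          (IsPreconnected.union t' ht ht' hIo.isPreconnected hJo.isPreconnected)
      · exact (hs.congr e1).union_of_isOpen (hs'.congr e2) hI hJ
      · rintro a (ha | ha)
        · rw [e1 ha]; exact hps a ha
        · rw [e2 ha]; exact hps' a ha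
      · obtain ⟨a, ha, rfl⟩ := hx
        exact ⟨a, Or.inl ha, e1 ha⟩
      · obtain ⟨a, ha, rfl⟩ := hz
        exact ⟨a, Or.inr ha, e2 ha⟩
    · rintro x y - - ⟨I, s, hI, hIo, hs, hps, hx, hy⟩
      exact ⟨I, s, hI, hIo, hs, hps, hy, hx⟩
  intro x hx y hy hxy
  obtain ⟨I, s, -, -, -, hps, ⟨a, ha, rfl⟩, ⟨b, hb, rfl⟩⟩ := hR x hx y hy
  rw [hps a ha, hps b hb] at hxy
  have : a = b := congrArg Prod.snd hxy
  rw [this]

/-- An open plane set which meets every line through the origin in a nonempty preconnected set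
contains the origin and is star-shaped. -/
theorem star_of_lines {S : Set (ℝ × ℝ)} (ho : IsOpen S)
    (h : ∀ a b : ℝ, (a ≠ 0 ∨ b ≠ 0) → IsConnected {q ∈ S | a * q.1 + b * q.2 = 0}) :
    (0 : ℝ × ℝ) ∈ S ∧ StarConvex ℝ 0 S := by
  -- parametrised form
  have hline : ∀ q : ℝ × ℝ, q ≠ 0 → IsConnected {t : ℝ | t • q ∈ S} := by
    intro q hq
    have hq' : q.2 ≠ 0 ∨ -q.1 ≠ 0 := by
      by_contra hc
      push Not at hc
      exact hq (Prod.ext (by simpa using hc.2) hc.1)
    have hn : 0 < q.1 ^ 2 + q.2 ^ 2 := by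
      rcases hq' with h1 | h1
      · positivity
      · have : q.1 ≠ 0 := by simpa using h1
        positivity
    have h1 := (h q.2 (-q.1) hq').image
      (fun r : ℝ × ℝ => (r.1 * q.1 + r.2 * q.2) / (q.1 ^ 2 + q.2 ^ 2)) (by fun_prop)
    convert h1 using 1
    ext t
    constructor
    · intro ht
      refine ⟨t • q, ⟨ht, by simp; ring⟩, ?_⟩
      simp only [Prod.smul_fst, Prod.smul_snd, smul_eq_mul]
      field_simp
    · rintro ⟨r, ⟨hr, hr0⟩, rfl⟩
      show _ • q ∈ S
      convert hr using 1
      refine Prod.ext ?_ ?_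
      · simp only [Prod.smul_fst, smul_eq_mul]
        field_simp
        linear_combination (-q.2) * hr0
      · simp only [Prod.smul_snd, smul_eq_mul]
        field_simp
        linear_combination q.1 * hr0
  have h0 : (0 : ℝ × ℝ) ∈ S := by
    by_contra h0
    let A : Set (ℝ × ℝ) := {q | ∃ t : ℝ, 0 < t ∧ t • q ∈ S}
    let B : Set (ℝ × ℝ) := {q | ∃ t : ℝ, t < 0 ∧ t • q ∈ S}
    have hA : IsOpen A := by
      have : A = ⋃ t ∈ Ioi (0 : ℝ), (fun q : ℝ × ℝ => t • q) ⁻¹' S := by
        ext q; simp [A]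
      rw [this]
      exact isOpen_biUnion fun t _ => ho.preimage (by fun_prop)
    have hB : IsOpen B := by
      have : B = ⋃ t ∈ Iio (0 : ℝ), (fun q : ℝ × ℝ => t • q) ⁻¹' S := by
        ext q; simp [B]
      rw [this]
      exact isOpen_biUnion fun t _ => ho.preimage (by fun_prop)
    have hrank : 1 < Module.rank ℝ (ℝ × ℝ) := by
      rw [rank_prod', Module.rank_self]; norm_num
    have hcon := (isConnected_compl_singleton_of_one_lt_rank hrank (0 : ℝ × ℝ)).isPreconnected
    have hcov : ({0}ᶜ : Set (ℝ × ℝ)) ⊆ A ∪ B := by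
      intro q hq
      obtain ⟨t, ht⟩ := (hline q hq).nonempty
      rcases lt_trichotomy t 0 with h1 | h1 | h1
      · exact Or.inr ⟨t, h1, ht⟩
      · subst h1
        exact absurd (by simpa using ht) h0
      · exact Or.inl ⟨t, h1, ht⟩
    obtain ⟨q₀, hq₀S, -⟩ := (h 1 0 (Or.inl one_ne_zero)).nonempty
    have hq₀ : q₀ ≠ 0 := by rintro rfl; exact h0 hq₀S
    obtain ⟨q, hq, ⟨t, ht, htS⟩, ⟨t', ht', ht'S⟩⟩ := hcon A B hA hB hcov
      ⟨q₀, hq₀, 1, one_pos, by simpa using hq₀S⟩
      ⟨-q₀, neg_ne_zero.2 hq₀, -1, by norm_num, by simpa using hq₀S⟩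
    have h1 := (isPreconnected_iff_ordConnected.1 (hline q hq).isPreconnected).out ht'S htS
      (show (0 : ℝ) ∈ Icc t' t from ⟨ht'.le, ht.le⟩)
    exact h0 (by simpa using h1)
  refine ⟨h0, fun q hq a b ha hb hab => ?_⟩
  by_cases hq0 : q = 0
  · subst hq0; simpa using h0
  · have h1 := (isPreconnected_iff_ordConnected.1 (hline q hq0).isPreconnected).out
      (show (0 : ℝ) ∈ {t : ℝ | t • q ∈ S} by simpa using h0)
      (show (1 : ℝ) ∈ {t : ℝ | t • q ∈ S} by simpa using hq)
      (show b ∈ Icc (0 : ℝ) 1 from ⟨hb, by linarith⟩)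
    simpa using h1

end Vale.Agent.N071T
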