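import Vale.Agent.P071.H969.Final
import Vale.Agent.N071T.Topo
import Mathlib.Analysis.SpecialFunctions.SmoothTransition

set_option linter.all false

/-!
# Nodal domains of the elements of `V(Ω)`
-/

open MeasureTheory Metric Filter Topology Set
open scoped ContDiff

namespace Vale.Agent.N071T

open Vale.Agent.P071 Vale.Agent.P071.Lim

/-- the cut-off `G(s) = s χ(s - 1)` -/
noncomputable def GG (s : ℝ) : ℝ := s * Real.smoothTransition (s - 1)

theorem GG_contDiff : ContDiff ℝ 1 GG :=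
  contDiff_id.mul (Real.smoothTransition.contDiff.comp (contDiff_id.sub contDiff_const))

theorem GG_low {s : ℝ} (h : s ≤ 1) : GG s = 0 := by
  unfold GG
  rw [Real.smoothTransition.zero_of_nonpos (by linarith), mul_zero]

theorem GG_high {s : ℝ} (h : 2 ≤ s) : GG s = s := by
  unfold GG
  rw [Real.smoothTransition.one_of_one_le (by linarith), mul_one]

theorem GG_abs (s : ℝ) : |GG s| ≤ |s| := by
  unfold GG
  rw [abs_mul, abs_of_nonneg (Real.smoothTransition.nonneg _)]
  exact mul_le_of_le_one_right (abs_nonneg _) (Real.smoothTransition.le_one _)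

theorem dGG_high {s : ℝ} (h : 2 < s) : deriv GG s = 1 := by
  have : GG =ᶠ[𝓝 s] id := by
    filter_upwards [lt_mem_nhds h] with y hy using GG_high hy.le
  rw [this.deriv_eq, deriv_id]

theorem dGG_low {s : ℝ} (h : s < 1) : deriv GG s = 0 := by
  have : GG =ᶠ[𝓝 s] fun _ => 0 := by
    filter_upwards [gt_mem_nhds h] with y hy using GG_low hy.le
  rw [this.deriv_eq, deriv_const]

theorem dGG_bdd : ∃ C : ℝ, ∀ s, |deriv GG s| ≤ C := by
  have hc : Continuous (deriv GG) := GG_contDiff.continuous_deriv le_rfl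
  obtain ⟨C, hC⟩ := (isCompact_Icc (a := (1 : ℝ)) (b := 2)).exists_bound_of_continuousOn
    hc.continuousOn
  refine ⟨max C 1, fun s => ?_⟩
  rcases lt_or_ge s 1 with h | h
  · rw [dGG_low h, abs_zero]; exact le_max_of_le_right zero_le_one
  rcases lt_or_ge 2 s with h' | h'
  · rw [dGG_high h', abs_one]; exact le_max_right _ _
  · exact le_max_of_le_left (hC s ⟨h, h'⟩)

section Trunc

variable {Ω D D' : Set ℂ} {u : ℂ → ℝ}

/-- `D` is a union of components of `{u > 0}`. -/
structure Piece (Ω : Set ℂ) (u : ℂ → ℝ) (D D' : Set ℂ) : Prop where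
  o : IsOpen D
  o' : IsOpen D'
  dis : Disjoint D D'
  sub : ∀ x ∈ D, x ∈ Ω ∧ 0 < u x
  cov : ∀ x ∈ Ω, 0 < u x → x ∈ D ∨ x ∈ D'

theorem trunc_local (ho : IsOpen Ω) (hc : ContinuousOn u Ω) (h : Piece Ω u D D') {ε : ℝ}
    (hε : 0 < ε) {x : ℂ} (hx : x ∈ Ω) :
    (x ∈ D ∧ D.indicator (fun z => ε * GG (u z / ε)) =ᶠ[𝓝 x] fun z => ε * GG (u z / ε)) ∨
    (x ∉ D ∧ D.indicator (fun z => ε * GG (u z / ε)) =ᶠ[𝓝 x] fun _ => 0) := by
  by_cases hD : x ∈ D
  · left
    refine ⟨hD, ?_⟩
    filter_upwards [h.o.mem_nhds hD] with y hy using indicator_of_mem hy _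
  · right
    refine ⟨hD, ?_⟩
    by_cases hu : 0 < u x
    · have hD' := (h.cov x hx hu).resolve_left hD
      filter_upwards [h.o'.mem_nhds hD'] with y hy
      exact indicator_of_notMem (fun hy' => disjoint_left.1 h.dis hy' hy) _
    · have h1 : ∀ᶠ y in 𝓝 x, u y < ε :=
        (hc.continuousAt (ho.mem_nhds hx)).eventually (gt_mem_nhds (by linarith))
      filter_upwards [h1] with y hy
      have : GG (u y / ε) = 0 := GG_low ((div_le_one hε).2 hy.le)
      by_cases hyD : y ∈ D
      · rw [indicator_of_mem hyD, this, mul_zero]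
      · exact indicator_of_notMem hyD _

theorem trunc_weak (ho : IsOpen Ω) (hu : ContDiffOn ℝ 1 u Ω) (h : Piece Ω u D D') (e : ℂ)
    (hm : MemLp u 2 (volume.restrict Ω))
    (hg : MemLp (fun z => fderiv ℝ u z e) 2 (volume.restrict Ω))
    {φ : ℂ → ℝ} (h1 : ContDiff ℝ ∞ φ) (h2 : HasCompactSupport φ) (h3 : tsupport φ ⊆ Ω) :
    ∫ z in Ω, D.indicator u z * fderiv ℝ φ z e =
      -∫ z in Ω, D.indicator (fun z => fderiv ℝ u z e) z * φ z := by
  obtain ⟨C, hC⟩ := dGG_bdd
  set ε : ℕ → ℝ := fun n => 1 / ((n : ℝ) + 1) with hεdef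
  have hε : ∀ n, 0 < ε n := fun n => by simp only [hεdef]; positivity
  have hε0 : Tendsto ε atTop (𝓝 0) := tendsto_one_div_add_atTop_nhds_zero_nat
  set w : ℕ → ℂ → ℝ := fun n => D.indicator (fun z => ε n * GG (u z / ε n)) with hw
  have hG : ∀ n, ContDiffOn ℝ 1 (fun z => ε n * GG (u z / ε n)) Ω := fun n =>
    contDiffOn_const.mul (GG_contDiff.comp_contDiffOn (hu.div_const _))
  have hwc : ∀ n, ContDiffOn ℝ 1 (w n) Ω := by
    intro n x hx
    rcases trunc_local ho hu.continuousOn h (hε n) hx with ⟨-, h4⟩ | ⟨-, h4⟩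
    · exact (((hG n).contDiffAt (ho.mem_nhds hx)).congr_of_eventuallyEq h4).contDiffWithinAt
    · exact (contDiffAt_const.congr_of_eventuallyEq h4).contDiffWithinAt
  have hwd : ∀ n, ∀ x ∈ Ω, fderiv ℝ (w n) x e =
      D.indicator (fun z => deriv GG (u z / ε n) * fderiv ℝ u z e) x := by
    intro n x hx
    rcases trunc_local ho hu.continuousOn h (hε n) hx with ⟨hD, h4⟩ | ⟨hD, h4⟩
    · rw [indicator_of_mem hD]
      have hud : HasFDerivAt u (fderiv ℝ u x) x :=
        ((hu.differentiableOn (by norm_num)).differentiableAt (ho.mem_nhds hx)).hasFDerivAt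
      have h5 : HasDerivAt GG (deriv GG (u x / ε n)) (u x / ε n) :=
        (GG_contDiff.differentiable (by norm_num) _).hasDerivAt
      have h6 : HasFDerivAt (fun z => u z / ε n) ((ε n)⁻¹ • fderiv ℝ u x) x := by
        have := hud.const_smul (ε n)⁻¹
        refine this.congr_of_eventuallyEq (Eventually.of_forall fun z => ?_)
        simp [div_eq_inv_mul]
      have h7 := (h5.comp_hasFDerivAt x h6).const_mul (ε n)
      have h8 : fderiv ℝ (w n) x = _ := (h7.congr_of_eventuallyEq h4).fderiv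
      rw [h8]
      simp only [ContinuousLinearMap.smul_apply, smul_eq_mul]
      field_simp [(hε n).ne']
    · rw [indicator_of_notMem hD]
      have : fderiv ℝ (w n) x = fderiv ℝ (fun _ => (0 : ℝ)) x := h4.fderiv_eq
      rw [this]; simp
  have hparts := fun n => RegBaux.parts ho (hwc n) e h1 h2 h3
  have hφm : MemLp φ 2 (volume.restrict Ω) :=
    (h1.continuous.memLp_of_hasCompactSupport h2).restrict Ω
  have hφc : Continuous fun z => fderiv ℝ φ z e :=
    (h1.continuous_fderiv (by simp)).clm_apply continuous_const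
  have hφm' : MemLp (fun z => fderiv ℝ φ z e) 2 (volume.restrict Ω) :=
    (hφc.memLp_of_hasCompactSupport (h2.fderiv_apply ℝ e)).restrict Ω
  have hbig : ∀ x ∈ D, ∀ᶠ n in atTop, 2 < u x / ε n := by
    intro x hx
    have hp := (h.sub x hx).2
    filter_upwards [hε0.eventually (gt_mem_nhds (show (0 : ℝ) < u x / 2 by linarith))] with n hn
    rw [lt_div_iff₀ (hε n)]
    linarith
  have hL : Tendsto (fun n => ∫ z in Ω, w n z * fderiv ℝ φ z e) atTop
      (𝓝 (∫ z in Ω, D.indicator u z * fderiv ℝ φ z e)) := by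
    refine tendsto_integral_of_dominated_convergence (fun z => ‖u z * fderiv ℝ φ z e‖)
      (fun n => ?_) (hm.integrable_mul hφm').norm (fun n => Eventually.of_forall fun z => ?_)
      (Eventually.of_forall fun z => ?_)
    · exact ((hwc n).continuousOn.mul hφc.continuousOn).aestronglyMeasurable ho.measurableSet
    · rw [norm_mul, norm_mul]
      refine mul_le_mul_of_nonneg_right ?_ (norm_nonneg _)
      by_cases hz : z ∈ D
      · simp only [hw, indicator_of_mem hz, Real.norm_eq_abs]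
        rw [abs_mul, abs_of_pos (hε n)]
        have := GG_abs (u z / ε n)
        rw [abs_div, abs_of_pos (hε n), le_div_iff₀ (hε n)] at this
        linarith
      · simp only [hw, indicator_of_notMem hz, norm_zero, norm_nonneg]
    · by_cases hz : z ∈ D
      · refine tendsto_const_nhds.congr' ?_
        filter_upwards [hbig z hz] with n hn
        simp only [hw, indicator_of_mem hz]
        rw [GG_high hn.le, mul_div_cancel₀ _ (hε n).ne']
      · simp only [hw, indicator_of_notMem hz]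
        exact tendsto_const_nhds
  have hR : Tendsto (fun n => ∫ z in Ω, fderiv ℝ (w n) z e * φ z) atTop
      (𝓝 (∫ z in Ω, D.indicator (fun z => fderiv ℝ u z e) z * φ z)) := by
    refine tendsto_integral_of_dominated_convergence (fun z => C * ‖fderiv ℝ u z e * φ z‖)
      (fun n => ?_) ((hg.integrable_mul hφm).norm.const_mul C) (fun n => ?_) ?_
    · exact ((((hwc n).continuousOn_fderiv_of_isOpen ho le_rfl).clm_apply
        continuousOn_const).mul h1.continuous.continuousOn).aestronglyMeasurable ho.measurableSet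
    · filter_upwards [ae_restrict_mem ho.measurableSet] with z hz
      rw [hwd n z hz]
      have hC0 : 0 ≤ C := (abs_nonneg _).trans (hC 0)
      by_cases hzD : z ∈ D
      · rw [indicator_of_mem hzD, mul_assoc, norm_mul]
        exact mul_le_mul_of_nonneg_right (hC _) (norm_nonneg _)
      · rw [indicator_of_notMem hzD, zero_mul, norm_zero]
        positivity
    · filter_upwards [ae_restrict_mem ho.measurableSet] with z hz
      by_cases hzD : z ∈ D
      · refine tendsto_const_nhds.congr' ?_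
        filter_upwards [hbig z hzD] with n hn
        rw [hwd n z hz, indicator_of_mem hzD, indicator_of_mem hzD, dGG_high hn, one_mul]
      · simp only [hwd _ z hz, indicator_of_notMem hzD]
        exact tendsto_const_nhds
  have := tendsto_nhds_unique hL (hR.neg.congr fun n => (hparts n).symm)
  exact this

theorem trunc_H1 (ho : IsOpen Ω) (hu : ContDiffOn ℝ 1 u Ω) (h : Piece Ω u D D')
    (hH : IsH1 Ω u (px u) (py u)) :
    IsH1 Ω (D.indicator u) (D.indicator (px u)) (D.indicator (py u)) :=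
  ⟨hH.v_mem.indicator h.o.measurableSet, hH.gx_mem.indicator h.o.measurableSet,
    hH.gy_mem.indicator h.o.measurableSet,
    fun _ h1 h2 h3 => trunc_weak ho hu h 1 hH.v_mem hH.gx_mem h1 h2 h3,
    fun _ h1 h2 h3 => trunc_weak ho hu h Complex.I hH.v_mem hH.gy_mem h1 h2 h3⟩

theorem trunc_cont (ho : IsOpen Ω) (hc : ContinuousOn u Ω) (h : Piece Ω u D D') :
    ContinuousOn (D.indicator u) Ω := by
  intro x hx
  refine ContinuousAt.continuousWithinAt ?_
  have hcx := hc.continuousAt (ho.mem_nhds hx)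
  by_cases hD : x ∈ D
  · refine hcx.congr ?_
    filter_upwards [h.o.mem_nhds hD] with y hy using (indicator_of_mem hy _).symm
  by_cases hu : 0 < u x
  · have hD' := (h.cov x hx hu).resolve_left hD
    refine (continuousAt_const (y := (0 : ℝ))).congr ?_
    filter_upwards [h.o'.mem_nhds hD'] with y hy
    exact (indicator_of_notMem (fun hy' => disjoint_left.1 h.dis hy' hy) _).symm
  · unfold ContinuousAt
    rw [indicator_of_notMem hD]
    have h1 : Tendsto (fun y => max (u y) 0) (𝓝 x) (𝓝 (max (u x) 0)) :=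
      hcx.max continuousAt_const
    rw [max_eq_right (not_lt.1 hu)] at h1
    refine squeeze_zero (fun y => ?_) (fun y => ?_) h1
    · by_cases hy : y ∈ D
      · rw [indicator_of_mem hy]; exact (h.sub y hy).2.le
      · rw [indicator_of_notMem hy]
    · by_cases hy : y ∈ D
      · rw [indicator_of_mem hy]; exact le_max_left _ _
      · rw [indicator_of_notMem hy]; exact le_max_right _ _

end Trunc

/-- The Rayleigh quotient is at least `μ₁`. -/
theorem rayleigh {Ω : Set ℂ} {v gx gy : ℂ → ℝ} (hv : IsH1 Ω v gx gy) (h0 : ∫ z in Ω, v z = 0) :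
    muOne Ω * ∫ z in Ω, v z ^ 2 ≤ ∫ z in Ω, (gx z ^ 2 + gy z ^ 2) := by
  have hnn : 0 ≤ ∫ z in Ω, v z ^ 2 := integral_nonneg fun z => sq_nonneg _
  rcases hnn.eq_or_lt with h | h
  · rw [← h, mul_zero]
    exact integral_nonneg fun z => by positivity
  · rw [← le_div_iff₀ h]
    refine csInf_le ⟨0, ?_⟩ ⟨v, gx, gy, hv, h0, h, rfl⟩
    rintro q ⟨v', gx, gy, _, _, h1, rfl⟩
    exact div_nonneg (integral_nonneg fun z => by positivity) h1.le

theorem int3 {μ : Measure ℂ} {f g h k : ℂ → ℝ} (hf : Integrable f μ) (hg : Integrable g μ)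
    (hh : Integrable h μ) (a b c : ℝ) (e : ∀ z, k z = a * f z + b * g z + c * h z) :
    ∫ z, k z ∂μ = a * (∫ z, f z ∂μ) + b * (∫ z, g z ∂μ) + c * ∫ z, h z ∂μ := by
  have i1 : Integrable (fun z => a * f z) μ := hf.const_mul a
  have i2 : Integrable (fun z => b * g z) μ := hg.const_mul b
  have i3 : Integrable (fun z => c * h z) μ := hh.const_mul c
  have i4 : Integrable (fun z => a * f z + b * g z) μ := i1.add i2
  rw [funext e, integral_add i4 i3, integral_add i1 i2, integral_const_mul, integral_const_mul,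
    integral_const_mul]

/-- Minimisers of the Rayleigh quotient are in `V(Ω)`. -/
theorem inV_of_min {Ω : Set ℂ} (ho : IsOpen Ω) (hfin : volume Ω < ⊤) (hpos : 0 < volume Ω)
    {φ gx gy : ℂ → ℝ} (hφ : IsH1 Ω φ gx gy) (h0 : ∫ z in Ω, φ z = 0)
    (hmin : ∫ z in Ω, (gx z ^ 2 + gy z ^ 2) ≤ muOne Ω * ∫ z in Ω, φ z ^ 2) : InV Ω φ := by
  haveI : IsFiniteMeasure (volume.restrict Ω) := ⟨by simpa using hfin⟩
  refine ⟨gx, gy, hφ, fun v hx hy hv => ?_⟩
  set μ := muOne Ω with hμ
  set A : ℝ := (volume Ω).toReal with hA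
  have hA0 : 0 < A := ENNReal.toReal_pos hpos.ne' hfin.ne
  set m : ℝ := (∫ z in Ω, v z) / A with hm
  have hv1 := NC.IsH1.lin hv (tgt_isH1_one ho hfin) 1 (-m)
  simp only [one_mul, mul_one, mul_zero, add_zero] at hv1
  have hvi : Integrable v (volume.restrict Ω) := hv.v_mem.integrable (by norm_num)
  have hφi : Integrable φ (volume.restrict Ω) := hφ.v_mem.integrable (by norm_num)
  have hv0 : ∫ z in Ω, (v z + -m) = 0 := by
    rw [integral_add hvi (integrable_const _), integral_const, smul_eq_mul, hm]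
    simp only [Measure.real, MeasurableSet.univ, Measure.restrict_apply, univ_inter]
    rw [← hA]
    field_simp
    ring
  set B : ℝ := (∫ z in Ω, (gx z * hx z + gy z * hy z)) - μ * ∫ z in Ω, φ z * (v z + -m) with hB
  set Q : ℝ := (∫ z in Ω, (hx z ^ 2 + hy z ^ 2)) - μ * ∫ z in Ω, (v z + -m) ^ 2 with hQ
  have i1 : Integrable (fun z => gx z ^ 2 + gy z ^ 2) (volume.restrict Ω) :=
    hφ.gx_mem.integrable_sq.add hφ.gy_mem.integrable_sq
  have i2 : Integrable (fun z => gx z * hx z + gy z * hy z) (volume.restrict Ω) :=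
    (hφ.gx_mem.integrable_mul hv.gx_mem).add (hφ.gy_mem.integrable_mul hv.gy_mem)
  have i3 : Integrable (fun z => hx z ^ 2 + hy z ^ 2) (volume.restrict Ω) :=
    hv.gx_mem.integrable_sq.add hv.gy_mem.integrable_sq
  have j1 := hφ.v_mem.integrable_sq
  have j2 : Integrable (fun z => φ z * (v z + -m)) (volume.restrict Ω) :=
    hφ.v_mem.integrable_mul hv1.v_mem
  have j3 := hv1.v_mem.integrable_sq
  have hq : ∀ t : ℝ, 0 ≤ Q * (t * t) + (2 * B) * t + 0 := by
    intro t
    have h1 := NC.IsH1.lin hφ hv1 1 t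
    simp only [one_mul] at h1
    have hv1i : Integrable (fun z => v z + -m) (volume.restrict Ω) :=
      hv1.v_mem.integrable (by norm_num)
    have h2 := rayleigh h1 (by
      rw [int3 hφi hv1i hφi 1 t 0 (fun z => by ring), h0, hv0]
      ring)
    have e1 := int3 j1 j2 j3 1 (2 * t) (t ^ 2) (k := fun z => (φ z + t * (v z + -m)) ^ 2)
      (fun z => by ring)
    have e2 := int3 i1 i2 i3 1 (2 * t) (t ^ 2)
      (k := fun z => (gx z + t * hx z) ^ 2 + (gy z + t * hy z) ^ 2) (fun z => by ring)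
    rw [e1, e2] at h2
    simp only [hQ, hB]
    nlinarith only [h2, hmin]
  have hd := discrim_le_zero hq
  rw [discrim] at hd
  have hB0 : B = 0 := by nlinarith only [hd, sq_nonneg B]
  have e3 : ∫ z in Ω, φ z * (v z + -m) = ∫ z in Ω, φ z * v z := by
    have j4 : Integrable (fun z => φ z * v z) (volume.restrict Ω) :=
      hφ.v_mem.integrable_mul hv.v_mem
    rw [int3 j4 hφi hφi 1 (-m) 0 (fun z => by ring), h0]
    ring
  rw [hB, e3] at hB0
  linarith

section Main

variable {Ω : Set ℂ} {u v : ℂ → ℝ}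

theorem classical_grad (ho : IsOpen Ω) (hu : InV Ω u) (hc : ContinuousOn u Ω) :
    IsH1 Ω u (px u) (py u) ∧ ∀ v hx hy : ℂ → ℝ, IsH1 Ω v hx hy →
      ∫ z in Ω, (px u z * hx z + py u z * hy z) = muOne Ω * ∫ z in Ω, u z * v z := by
  obtain ⟨gx, gy, hH, hw⟩ := hu
  obtain ⟨hsm, -, hgrad⟩ := reg_H1 ho hH hc (μ := muOne Ω) (fun φ h1 h2 _ =>
    hw φ (px φ) (py φ) (tgt_isH1_test ho h1 h2))
  refine ⟨isH1_of_c1 ho (hsm.of_le (by norm_num)) hH.v_mem.integrable_sq ?_, fun v hx hy hv => ?_⟩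
  · have h4 : IntegrableOn (fun z => gx z ^ 2 + gy z ^ 2) Ω :=
      hH.gx_mem.integrable_sq.add hH.gy_mem.integrable_sq
    refine h4.congr (hgrad.mono fun z hz => ?_)
    simp only
    rw [hz.1, hz.2]
    rfl
  · rw [← hw v hx hy hv]
    refine integral_congr_ae (hgrad.mono fun z hz => ?_)
    simp only
    rw [hz.1, hz.2]

theorem inV_neg (hu : InV Ω u) : InV Ω (fun z => -u z) := by
  have := NC.InV.lin hu hu (-1) 0
  simpa using this

theorem exists_neg (ho : IsOpen Ω) (hb : Bornology.IsBounded Ω) (hμ : 0 < muOne Ω)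
    (hu : InV Ω u) (hc : ContinuousOn u Ω) (h0 : ∃ z ∈ Ω, u z ≠ 0) : ∃ z ∈ Ω, u z < 0 := by
  have hfin : volume Ω < ⊤ := hb.measure_lt_top
  haveI : IsFiniteMeasure (volume.restrict Ω) := ⟨by simpa using hfin⟩
  obtain ⟨hH, hw⟩ := classical_grad ho hu hc
  have h1 := hw _ _ _ (tgt_isH1_one ho hfin)
  simp only [mul_zero, add_zero, integral_zero, mul_one] at h1
  have h2 : ∫ z in Ω, u z = 0 := (mul_eq_zero.1 h1.symm).resolve_left hμ.ne'
  by_contra hcon
  push Not at hcon
  have h3 := (setIntegral_eq_zero_iff_of_nonneg_ae (f := u) (s := Ω) (μ := volume)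
    ((ae_restrict_iff' ho.measurableSet).2 (Eventually.of_forall hcon))
    (hH.v_mem.integrable (by norm_num))).1 h2
  have h4 := Measure.eqOn_open_of_ae_eq (μ := (volume : Measure ℂ)) h3 ho hc continuousOn_const
  obtain ⟨z, hz, hz0⟩ := h0
  exact hz0 (h4 hz)

theorem piece_pos (ho : IsOpen Ω) (hb : Bornology.IsBounded Ω) {D D' : Set ℂ}
    (h : Piece Ω u D D') (hm : MemLp u 2 (volume.restrict Ω)) (hD : D.Nonempty) :
    0 < ∫ z in Ω, D.indicator u z := by
  haveI : IsFiniteMeasure (volume.restrict Ω) := ⟨by simpa using hb.measure_lt_top⟩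
  rw [setIntegral_pos_iff_support_of_nonneg_ae]
  · refine lt_of_lt_of_le (h.o.measure_pos volume hD) (measure_mono fun z hz => ?_)
    refine ⟨?_, (h.sub z hz).1⟩
    rw [Function.mem_support, indicator_of_mem hz]
    exact (h.sub z hz).2.ne'
  · exact Eventually.of_forall fun z => indicator_nonneg (fun y hy => (h.sub y hy).2.le) z
  · exact (hm.indicator h.o.measurableSet).integrable (by norm_num)

/-- **Courant's theorem** for `V(Ω)`. -/
theorem pos_preconnected (ho : IsOpen Ω) (hb : Bornology.IsBounded Ω) (hs : IsSimplyConnected Ω)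
    (hT : Tight Ω) (hu : InV Ω u) (hc : ContinuousOn u Ω) (h0 : ∃ z ∈ Ω, u z ≠ 0) :
    IsPreconnected {x ∈ Ω | 0 < u x} := by
  obtain ⟨-, -, -, -, hμ⟩ := NC.setup ho hb hs hT
  have hfin : volume Ω < ⊤ := hb.measure_lt_top
  haveI : IsFiniteMeasure (volume.restrict Ω) := ⟨by simpa using hfin⟩
  have hPo : IsOpen {x ∈ Ω | 0 < u x} := hc.isOpen_inter_preimage ho isOpen_Ioi
  intro O₁ O₂ h1 h2 hcov ⟨a₁, ha₁⟩ ⟨a₂, ha₂⟩
  by_contra hdis
  rw [not_nonempty_iff_eq_empty] at hdis
  set D₁ := {x ∈ Ω | 0 < u x} ∩ O₁ with hD₁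
  set D₂ := {x ∈ Ω | 0 < u x} ∩ O₂ with hD₂
  have hd : Disjoint D₁ D₂ := by
    rw [disjoint_left]
    intro x hx hx'
    have : x ∈ {x ∈ Ω | 0 < u x} ∩ (O₁ ∩ O₂) := ⟨hx.1, hx.2, hx'.2⟩
    rw [hdis] at this
    exact this
  have hcv : ∀ x ∈ Ω, 0 < u x → x ∈ D₁ ∨ x ∈ D₂ := fun x hx hp =>
    (hcov ⟨hx, hp⟩).imp (fun h => ⟨⟨hx, hp⟩, h⟩) fun h => ⟨⟨hx, hp⟩, h⟩
  have p1 : Piece Ω u D₁ D₂ := ⟨hPo.inter h1, hPo.inter h2, hd, fun x hx => hx.1, hcv⟩
  have p2 : Piece Ω u D₂ D₁ :=
    ⟨hPo.inter h2, hPo.inter h1, hd.symm, fun x hx => hx.1, fun x hx hp => (hcv x hx hp).symm⟩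
  obtain ⟨hH, hw⟩ := classical_grad ho hu hc
  have hu1 : ContDiffOn ℝ 1 u Ω := (NC.smooth_of_inV ho hu hc).1.of_le (by norm_num)
  have t1 := trunc_H1 ho hu1 p1 hH
  have t2 := trunc_H1 ho hu1 p2 hH
  set b := ∫ z in Ω, D₁.indicator u z with hbdef
  set a := ∫ z in Ω, D₂.indicator u z with hadef
  have ha : 0 < a := piece_pos ho hb p2 hH.v_mem ⟨a₂, ha₂⟩
  have hφ := NC.IsH1.lin t1 t2 a (-b)
  have i1 : Integrable (D₁.indicator u) (volume.restrict Ω) := t1.v_mem.integrable (by norm_num)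
  have i2 : Integrable (D₂.indicator u) (volume.restrict Ω) := t2.v_mem.integrable (by norm_num)
  have w1 := hw _ _ _ t1
  have w2 := hw _ _ _ t2
  have j1 : Integrable (fun z => px u z * D₁.indicator (px u) z + py u z * D₁.indicator (py u) z)
      (volume.restrict Ω) :=
    (hH.gx_mem.integrable_mul t1.gx_mem).add (hH.gy_mem.integrable_mul t1.gy_mem)
  have j2 : Integrable (fun z => px u z * D₂.indicator (px u) z + py u z * D₂.indicator (py u) z)
      (volume.restrict Ω) :=
    (hH.gx_mem.integrable_mul t2.gx_mem).add (hH.gy_mem.integrable_mul t2.gy_mem)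
  have k1 : Integrable (fun z => u z * D₁.indicator u z) (volume.restrict Ω) :=
    hH.v_mem.integrable_mul t1.v_mem
  have k2 : Integrable (fun z => u z * D₂.indicator u z) (volume.restrict Ω) :=
    hH.v_mem.integrable_mul t2.v_mem
  have hsq : ∀ (f : ℂ → ℝ) (z : ℂ), (a * D₁.indicator f z + -b * D₂.indicator f z) ^ 2 =
      a ^ 2 * (f z * D₁.indicator f z) + b ^ 2 * (f z * D₂.indicator f z) := by
    intro f z
    by_cases z1 : z ∈ D₁
    · rw [indicator_of_mem z1, indicator_of_notMem (disjoint_left.1 hd z1)]; ring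
    · by_cases z2 : z ∈ D₂
      · rw [indicator_of_mem z2, indicator_of_notMem z1]; ring
      · rw [indicator_of_notMem z1, indicator_of_notMem z2]; ring
  have hV : InV Ω (fun z => a * D₁.indicator u z + -b * D₂.indicator u z) := by
    refine inV_of_min ho hfin (ho.measure_pos volume hs.nonempty) hφ ?_ (le_of_eq ?_)
    · rw [int3 i1 i2 i1 a (-b) 0 (fun z => by ring)]
      ring
    · have e1 := int3 j1 j2 j1 (a ^ 2) (b ^ 2) 0
        (k := fun z => (a * D₁.indicator (px u) z + -b * D₂.indicator (px u) z) ^ 2 +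
          (a * D₁.indicator (py u) z + -b * D₂.indicator (py u) z) ^ 2)
        (fun z => by rw [hsq, hsq]; ring)
      have e2 := int3 k1 k2 k1 (a ^ 2) (b ^ 2) 0
        (k := fun z => (a * D₁.indicator u z + -b * D₂.indicator u z) ^ 2)
        (fun z => by rw [hsq]; ring)
      rw [e1, e2, w1, w2]
      ring
  have hcφ : ContinuousOn (fun z => a * D₁.indicator u z + -b * D₂.indicator u z) Ω :=
    (continuousOn_const.mul (trunc_cont ho hc p1)).add
      (continuousOn_const.mul (trunc_cont ho hc p2))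
  obtain ⟨x, hx, hux⟩ := exists_neg ho hb hμ hu hc h0
  refine NC.no_crit ho hb hs hT hV hcφ ⟨a₁, ha₁.1.1, ?_⟩ x hx ?_
  · rw [indicator_of_mem (show a₁ ∈ D₁ from ha₁),
      indicator_of_notMem (disjoint_left.1 hd (show a₁ ∈ D₁ from ha₁)), mul_zero, add_zero]
    exact mul_ne_zero ha.ne' ha₁.1.2.ne'
  · have h3 : (fun z => a * D₁.indicator u z + -b * D₂.indicator u z) =ᶠ[𝓝 x] fun _ => 0 := by
      filter_upwards [(hc.continuousAt (ho.mem_nhds hx)).eventually (gt_mem_nhds hux)] with y hy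
      rw [indicator_of_notMem (fun h : y ∈ D₁ => lt_asymm hy h.1.2),
        indicator_of_notMem (fun h : y ∈ D₂ => lt_asymm hy h.1.2)]
      ring
    rw [h3.fderiv_eq]
    simp

theorem nonneg_preconnected (ho : IsOpen Ω) (hb : Bornology.IsBounded Ω)
    (hs : IsSimplyConnected Ω) (hT : Tight Ω) (hu : InV Ω u) (hc : ContinuousOn u Ω)
    (h0 : ∃ z ∈ Ω, u z ≠ 0) : IsPreconnected {x ∈ Ω | 0 ≤ u x} := by
  refine (pos_preconnected ho hb hs hT hu hc h0).subset_closure (fun x hx => ⟨hx.1, hx.2.le⟩) ?_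
  intro x hx
  rcases hx.2.eq_or_lt with h | h
  · by_contra hcl
    apply NC.no_crit ho hb hs hT hu hc h0 x hx.1
    apply IsLocalMax.fderiv_eq_zero
    have h1 : ∀ᶠ y in 𝓝 x, y ∉ closure {x ∈ Ω | 0 < u x} :=
      isClosed_closure.isOpen_compl.mem_nhds hcl
    filter_upwards [h1, ho.mem_nhds hx.1] with y hy hyΩ
    rw [← h]
    by_contra h2
    exact hy (subset_closure ⟨hyΩ, not_le.1 h2⟩)
  · exact subset_closure ⟨hx.1, h⟩

/-- The two nodal domains and the nodal set are connected. -/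
theorem nodal (ho : IsOpen Ω) (hb : Bornology.IsBounded Ω) (hs : IsSimplyConnected Ω)
    (hT : Tight Ω) (hu : InV Ω u) (hc : ContinuousOn u Ω) (h0 : ∃ z ∈ Ω, u z ≠ 0) :
    IsConnected {x ∈ Ω | 0 < u x} ∧ IsConnected {x ∈ Ω | u x < 0} ∧
      IsConnected {x ∈ Ω | u x = 0} := by
  obtain ⟨-, -, -, -, hμ⟩ := NC.setup ho hb hs hT
  have h0' : ∃ z ∈ Ω, -u z ≠ 0 := h0.imp fun z hz => ⟨hz.1, neg_ne_zero.2 hz.2⟩
  obtain ⟨x, hx, hux⟩ := exists_neg ho hb hμ hu hc h0
  obtain ⟨y, hy, huy⟩ := exists_neg ho hb hμ (inV_neg hu) hc.neg h0'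
  have huy' : 0 < u y := by simpa using huy
  refine ⟨⟨⟨y, hy, huy'⟩, pos_preconnected ho hb hs hT hu hc h0⟩, ⟨⟨x, hx, hux⟩, ?_⟩, ?_, ?_⟩
  · simpa using pos_preconnected ho hb hs hT (inV_neg hu) hc.neg h0'
  · obtain ⟨z, hz, hz0⟩ := hs.isPathConnected.isConnected.isPreconnected.intermediate_value hx hy
      hc (show (0 : ℝ) ∈ Icc (u x) (u y) from ⟨hux.le, huy'.le⟩)
    exact ⟨z, hz, hz0⟩
  · refine zero_preconnected ho hs hc (nonneg_preconnected ho hb hs hT hu hc h0) ?_
    simpa using nonneg_preconnected ho hb hs hT (inV_neg hu) hc.neg h0'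

end Main

end Vale.Agent.N071T
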