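import Vale.Agent.P071.H969.Final

set_option linter.all false

/-!
# Planar domains with continuous boundary have uniformly small boundary tails
-/

open MeasureTheory Set Metric Filter Topology
open scoped ENNReal NNReal ComplexConjugate

namespace Vale.Agent.N071T

open Vale.P071

/-- Near each boundary point the set is, after a rotation, the region above a continuous graph. -/
def ContDomain (Ω : Set ℂ) : Prop :=
  ∀ p ∈ frontier Ω, ∃ (e : ℂ) (r : ℝ) (h : ℝ → ℝ),
    ‖e‖ = 1 ∧ 0 < r ∧ Continuous h ∧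
      ∀ z ∈ ball p r, z ∈ Ω ↔ h ((conj e * (z - p)).re) < (conj e * (z - p)).im

/-- Local charts at a boundary point of a domain with continuous boundary, in the form needed for the strips. -/
theorem local_chart0 {Ω : Set ℂ} (hΩ : IsOpen Ω) (hL : ContDomain Ω) {p : ℂ}
    (hp : p ∈ frontier Ω) :
    ∃ (v : ℂ) (ρ : ℝ) (N : ℝ → Set ℂ), ‖v‖ = 1 ∧ 0 < ρ ∧ p ∈ N ρ ∧ (∀ η, 0 < η → IsOpen (N η)) ∧
      (∀ η, 0 < η → frontier Ω ∩ N ρ ⊆ N η) ∧
      (∀ η, 0 < η → η ≤ ρ → ∀ z ∈ Ω ∩ N η, ∀ t ∈ Icc (0:ℝ) ρ, z + t * v ∈ Ω) ∧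
      (∀ η, 0 < η → η ≤ ρ → ∀ w : ℂ, volume {t : ℝ | w - t * v ∈ Ω ∩ N η} ≤ ENNReal.ofReal η) := by
  obtain ⟨e, r, h, he, hr, hhc, hmem⟩ := hL p hp
  set X : ℂ → ℝ := fun z => (conj e * (z - p)).re with hX
  set Y : ℂ → ℝ := fun z => (conj e * (z - p)).im with hY
  have hXc : Continuous X := by fun_prop
  have hYc : Continuous Y := by (clear * -; fun_prop)
  have hXp : X p = 0 := by simp only [hX, Complex.mul_re, Complex.conj_re, Complex.sub_re, Complex.conj_im, Complex.sub_im, neg_mul, sub_neg_eq_add, sub_self, mul_zero, add_zero]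
  have hYp : Y p = 0 := by simp only [hY, Complex.mul_im, Complex.conj_re, Complex.sub_im, Complex.conj_im, Complex.sub_re, neg_mul, sub_self, mul_zero, neg_zero, add_zero]
  have hee : conj e * e = 1 := by
    rw [Complex.conj_mul', he]; norm_num
  have hpΩ : ∀ q ∈ frontier Ω, q ∉ Ω := fun q hq => by
    rw [hΩ.frontier_eq] at hq; exact hq.2
  have hclos : ∀ q ∈ frontier Ω, q ∈ ball p r → Y q = h (X q) := by
    intro q hq hqb
    have h1 : ¬ h (X q) < Y q := fun hlt => hpΩ q hq ((hmem q hqb).2 hlt)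
    rcases lt_trichotomy (Y q) (h (X q)) with hlt | heq | hgt
    · exfalso
      have hopen : IsOpen ({z | Y z < h (X z)} ∩ ball p r) :=
        (isOpen_lt hYc (hhc.comp hXc)).inter isOpen_ball
      have hq2 : q ∈ closure Ω := frontier_subset_closure hq
      rw [_root_.mem_closure_iff] at hq2
      obtain ⟨z, ⟨hz1, hz2⟩, hz3⟩ := hq2 _ hopen ⟨hlt, hqb⟩
      exact absurd ((hmem z hz2).1 hz3) (not_lt.2 (le_of_lt hz1))
    · exact heq
    · exact absurd hgt h1
  have hh0 : h 0 = 0 := by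
    have := hclos p hp (mem_ball_self hr)
    rw [hXp, hYp] at this
    exact this.symm
  obtain ⟨δ, hδpos, hδr, hhb⟩ : ∃ δ : ℝ, 0 < δ ∧ δ ≤ r / 8 ∧ ∀ x, |x| < δ → |h x| < r / 8 := by
    obtain ⟨δ, hδ, h1⟩ := Metric.continuous_iff.1 hhc 0 (r / 8) (by positivity)
    refine ⟨min δ (r / 8), lt_min hδ (by positivity), min_le_right _ _, fun x hx => ?_⟩
    have := h1 x (by simpa using hx.trans_le (min_le_left _ _))
    simpa [hh0] using this
  set ρ : ℝ := r / 4 with hρ
  have hρpos : 0 < ρ := by positivity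
  have hball : ∀ z, |X z| < δ → |Y z - h (X z)| < 2 * ρ → z ∈ ball p r := by
    intro z hx hy
    rw [mem_ball, dist_eq_norm]
    have h1 : ‖z - p‖ = ‖conj e * (z - p)‖ := by
      rw [norm_mul, Complex.norm_conj, he, one_mul]
    have h2 : ‖conj e * (z - p)‖ ≤ |X z| + |Y z| := Complex.norm_le_abs_re_add_abs_im _
    have h3 : |Y z| ≤ |Y z - h (X z)| + |h (X z)| := by
      calc |Y z| = |(Y z - h (X z)) + h (X z)| := by ring_nf
        _ ≤ _ := abs_add_le _ _
    have h4 := hhb (X z) hx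
    rw [h1]
    linarith
  have hXv : ∀ (z : ℂ) (t : ℝ), X (z + t * (e * Complex.I)) = X z := by
    intro z t
    have : conj e * (z + t * (e * Complex.I) - p) = conj e * (z - p) + t * Complex.I := by
      linear_combination (t * Complex.I) * hee
    simp only [hX]
    rw [this]; simp only [Complex.add_re, Complex.mul_re, Complex.conj_re, Complex.sub_re, Complex.conj_im, Complex.sub_im, neg_mul, sub_neg_eq_add, Complex.ofReal_re, Complex.I_re, mul_zero, Complex.ofReal_im, Complex.I_im, mul_one, sub_self, add_zero]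
  have hYv : ∀ (z : ℂ) (t : ℝ), Y (z + t * (e * Complex.I)) = Y z + t := by
    intro z t
    have : conj e * (z + t * (e * Complex.I) - p) = conj e * (z - p) + t * Complex.I := by
      linear_combination (t * Complex.I) * hee
    simp only [hY]
    rw [this]; simp only [Complex.add_im, Complex.mul_im, Complex.conj_re, Complex.sub_im, Complex.conj_im, Complex.sub_re, neg_mul, Complex.ofReal_re, Complex.I_im, mul_one, Complex.ofReal_im, Complex.I_re, mul_zero, add_zero]
  refine ⟨e * Complex.I, ρ, fun η => {z | |X z| < δ ∧ |Y z - h (X z)| < η}, ?_, hρpos, ?_, ?_, ?_,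
    ?_, ?_⟩
  · rw [norm_mul, he, Complex.norm_I, one_mul]
  · simp only [mem_ofPred_eq, hXp, abs_zero, hδpos, hYp, hh0, sub_self, hρpos, and_self]
  · intro η _
    exact (isOpen_lt (f := fun z => |X z|) (by fun_prop) continuous_const).inter
      (isOpen_lt (f := fun z => |Y z - h (X z)|) (by fun_prop) continuous_const)
  · rintro η hη z ⟨hz1, hz2, hz3⟩
    refine ⟨hz2, ?_⟩
    rw [hclos z hz1 (hball z hz2 (by linarith only [hρpos, hz3]))]
    simpa only [sub_self, abs_zero] using hη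
  · rintro η hη hηρ z ⟨hz1, hz2, hz3⟩ t ⟨ht0, ht1⟩
    have hzb := hball z hz2 (by linarith only [hρpos, hηρ, hz3])
    have hlt := (hmem z hzb).1 hz1
    change h (X z) < Y z at hlt
    rw [abs_lt] at hz3
    have hb : z + t * (e * Complex.I) ∈ ball p r := by
      apply hball
      · rw [hXv]; exact hz2
      · rw [hXv, hYv, abs_lt]; constructor <;> linarith only [hηρ, hz3, ht0, ht1]
    rw [hmem _ hb]
    change h (X _) < Y _
    rw [hXv, hYv]; linarith only [ht0, hlt]
  · rintro η hη hηρ w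
    have hsub : {t : ℝ | w - t * (e * Complex.I) ∈ Ω ∩ {z | |X z| < δ ∧ |Y z - h (X z)| < η}}
        ⊆ Ioo (Y w - h (X w) - η) (Y w - h (X w)) := by
      rintro t ⟨ht1, ht2, ht3⟩
      have hb := hball _ ht2 (by linarith only [hρpos, hηρ, ht3])
      have hlt := (hmem _ hb).1 ht1
      change h (X _) < Y _ at hlt
      have e1 : w - t * (e * Complex.I) = w + ((-t : ℝ) : ℂ) * (e * Complex.I) := by
        push_cast; ring
      rw [e1, hXv, hYv] at hlt ht3
      rw [abs_lt] at ht3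
      constructor <;> linarith only [hlt, ht3]
    calc volume _ ≤ volume (Ioo (Y w - h (X w) - η) (Y w - h (X w))) := measure_mono hsub
      _ = ENNReal.ofReal η := by rw [Real.volume_Ioo]; ring_nf

/-- **Uniform boundary tails on bounded domains with continuous boundary**, `ENNReal` form. -/
theorem cont_tails_lintegral {Ω : Set ℂ} (hΩ : IsOpen Ω) (hb : Bornology.IsBounded Ω)
    (hL : ContDomain Ω) {ε : ℝ} (hε : 0 < ε) :
    ∃ K : Set ℂ, IsCompact K ∧ K ⊆ Ω ∧ ∀ g : ℂ → ℝ, ContDiffOn ℝ 1 g Ω →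
      ∫⁻ z in Ω \ K, ENNReal.ofReal ((g z) ^ 2) ≤ ENNReal.ofReal ε *
        ((∫⁻ z in Ω, ENNReal.ofReal ((g z) ^ 2)) + ∫⁻ z in Ω, ENNReal.ofReal (gradSq g z)) := by
  have hfc : IsCompact (frontier Ω) :=
    (Metric.isCompact_of_isClosed_isBounded isClosed_frontier
      (hb.closure.subset frontier_subset_closure))
  choose v ρ N hv hρ hpN hNo hNf hN1 hN2 using fun (x : frontier Ω) => local_chart0 hΩ hL x.2
  obtain ⟨T, hT⟩ := hfc.elim_nhds_subcover' (fun x hx => N ⟨x, hx⟩ (ρ ⟨x, hx⟩))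
    (fun x hx => (hNo ⟨x, hx⟩ _ (hρ ⟨x, hx⟩)).mem_nhds (hpN ⟨x, hx⟩))
  set M : ℝ := T.card + 1 with hM
  have hMpos : 0 < M := by (clear * -; positivity)
  set η : frontier Ω → ℝ := fun x => min (ρ x) (ε / (M * (2 / ρ x + 2 * ρ x))) with hη
  have hηpos : ∀ x, 0 < η x := by
    intro x
    have := hρ x
    apply lt_min this
    (clear * - hε this; positivity)
  have hηρ : ∀ x, η x ≤ ρ x := fun x => min_le_left _ _
  have hηε : ∀ x, η x * (2 / ρ x + 2 * ρ x) ≤ ε / M := by
    intro x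
    have hx := hρ x
    have hc : 0 < 2 / ρ x + 2 * ρ x := by positivity
    calc η x * (2 / ρ x + 2 * ρ x) ≤ (ε / (M * (2 / ρ x + 2 * ρ x))) * (2 / ρ x + 2 * ρ x) := by
          gcongr; exact min_le_right _ _
      _ = ε / M := by field_simp
  set K : Set ℂ := closure Ω \ ⋃ x ∈ T, N x (η x) with hK
  have hUo : IsOpen (⋃ x ∈ T, N x (η x)) :=
    isOpen_biUnion fun x _ => hNo x _ (hηpos x)
  have hKc : IsCompact K := by
    apply Metric.isCompact_of_isClosed_isBounded
    · exact isClosed_closure.sdiff hUo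
    · exact hb.closure.subset sdiff_subset
  have hfr : frontier Ω ⊆ ⋃ x ∈ T, N x (η x) := by
    intro q hq
    have := hT hq
    simp only [mem_iUnion] at this ⊢
    obtain ⟨x, hx, hqx⟩ := this
    exact ⟨x, hx, hNf x _ (hηpos x) ⟨hq, hqx⟩⟩
  have hKΩ : K ⊆ Ω := by
    intro q hq
    by_contra hqΩ
    have : q ∈ frontier Ω := by rw [hΩ.frontier_eq]; exact ⟨hq.1, hqΩ⟩
    exact hq.2 (hfr this)
  refine ⟨K, hKc, hKΩ, ?_⟩
  intro g hg
  set A := ∫⁻ z in Ω, ENNReal.ofReal ((g z) ^ 2) with hA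
  set B := ∫⁻ z in Ω, ENNReal.ofReal (gradSq g z) with hB
  have hsub : Ω \ K ⊆ ⋃ x : T, Ω ∩ N x.1 (η x.1) := by
    rintro z ⟨hz1, hz2⟩
    have : z ∈ ⋃ x ∈ T, N x (η x) := by
      by_contra hcon
      exact hz2 ⟨subset_closure hz1, hcon⟩
    simp only [mem_iUnion] at this ⊢
    obtain ⟨x, hx, hzx⟩ := this
    exact ⟨⟨x, hx⟩, hz1, hzx⟩
  have hstrip : ∀ x : frontier Ω, ∫⁻ z in Ω ∩ N x (η x), ENNReal.ofReal ((g z) ^ 2)
      ≤ ENNReal.ofReal (ε / M) * (A + B) := by
    intro x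
    have hx := hρ x
    have h1 := strip_estimate (S := Ω ∩ N x (η x)) hΩ
      (hΩ.measurableSet.inter (hNo x _ (hηpos x)).measurableSet) (hv x) hx
      (hN1 x _ (hηpos x) (hηρ x)) (hN2 x _ (hηpos x) (hηρ x)) hg
    refine h1.trans ?_
    calc ENNReal.ofReal (η x) * (ENNReal.ofReal (2 / ρ x) * A + ENNReal.ofReal (2 * ρ x) * B)
        ≤ ENNReal.ofReal (η x) * (ENNReal.ofReal (2 / ρ x + 2 * ρ x) * A
            + ENNReal.ofReal (2 / ρ x + 2 * ρ x) * B) := by
          gcongr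
          · have : 0 < 2 * ρ x := by (clear * - hx; positivity)
            linarith only [hx]
          · have : 0 < 2 / ρ x := by positivity
            linarith only [this]
      _ = ENNReal.ofReal (η x * (2 / ρ x + 2 * ρ x)) * (A + B) := by
          rw [ENNReal.ofReal_mul (hηpos x).le]; ring
      _ ≤ _ := by gcongr; exact hηε x
  calc ∫⁻ z in Ω \ K, ENNReal.ofReal ((g z) ^ 2)
      ≤ ∫⁻ z in ⋃ x : T, Ω ∩ N x.1 (η x.1), ENNReal.ofReal ((g z) ^ 2) :=
        lintegral_mono_set hsub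
    _ ≤ ∑' x : T, ∫⁻ z in Ω ∩ N x.1 (η x.1), ENNReal.ofReal ((g z) ^ 2) :=
        lintegral_iUnion_le _ _
    _ ≤ ∑' _x : T, ENNReal.ofReal (ε / M) * (A + B) :=
        ENNReal.tsum_le_tsum fun x => hstrip x.1
    _ = T.card * (ENNReal.ofReal (ε / M) * (A + B)) := by
        rw [tsum_fintype]; simp only [Finset.univ_eq_attach, Finset.sum_const, Finset.card_attach, nsmul_eq_mul]
    _ = ENNReal.ofReal (T.card * (ε / M)) * (A + B) := by
        rw [ENNReal.ofReal_mul (by (clear * -; positivity)), ENNReal.ofReal_natCast, mul_assoc]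
    _ ≤ ENNReal.ofReal ε * (A + B) := by
        gcongr
        rw [hM]
        have : (T.card : ℝ) * (ε / (T.card + 1)) = ε * (T.card / (T.card + 1)) := by ring
        rw [this]
        have h2 : (T.card : ℝ) / (T.card + 1) ≤ 1 := by
          rw [div_le_one (by (clear * -; positivity))]; linarith only []
        nlinarith only [hε, h2]

/-- **Uniform boundary tails on bounded domains with continuous boundary**, real form. -/
theorem cont_tails {Ω : Set ℂ} (hΩ : IsOpen Ω) (hb : Bornology.IsBounded Ω)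
    (hL : ContDomain Ω) {ε : ℝ} (hε : 0 < ε) :
    ∃ K : Set ℂ, IsCompact K ∧ K ⊆ Ω ∧ ∀ g : ℂ → ℝ, ContDiffOn ℝ 1 g Ω →
      IntegrableOn (fun z => (g z) ^ 2) Ω → IntegrableOn (gradSq g) Ω →
      ∫ z in Ω \ K, (g z) ^ 2 ≤ ε * ((∫ z in Ω, (g z) ^ 2) + ∫ z in Ω, gradSq g z) := by
  obtain ⟨K, hKc, hKΩ, hK⟩ := cont_tails_lintegral hΩ hb hL hε
  refine ⟨K, hKc, hKΩ, fun g hg h1 h2 => ?_⟩
  have := hK g hg
  rw [← ofReal_integral_eq_lintegral_ofReal h1 (Eventually.of_forall fun z => sq_nonneg _),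
    ← ofReal_integral_eq_lintegral_ofReal h2 (Eventually.of_forall fun z => gradSq_nonneg _ _),
    ← ofReal_integral_eq_lintegral_ofReal (h1.mono_set sdiff_subset)
      (Eventually.of_forall fun z => sq_nonneg _),
    ← ENNReal.ofReal_add (integral_nonneg fun z => sq_nonneg _)
      (integral_nonneg fun z => gradSq_nonneg _ _),
    ← ENNReal.ofReal_mul hε.le] at this
  exact (ENNReal.ofReal_le_ofReal_iff (mul_nonneg hε.le (add_nonneg
    (integral_nonneg fun z => sq_nonneg _) (integral_nonneg fun z => gradSq_nonneg _ _)))).1 this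

theorem tight_of_cont {Ω : Set ℂ} (ho : IsOpen Ω) (hb : Bornology.IsBounded Ω)
    (hL : ContDomain Ω) : Vale.Agent.P071.Lim.Tight Ω := by
  intro δ hδ
  obtain ⟨K, h1, h2, h3⟩ := cont_tails (Ω := Ω) ho hb hL hδ
  refine ⟨K, h1, h2, fun v hv hv2 hg => ?_⟩
  have h := h3 v hv hv2 hg
  refine h.trans (le_of_eq ?_)
  congr 1
  exact (integral_add hv2 hg).symm

end Vale.Agent.N071T
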