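import Vale.Agent.N071T.Defs
import Vale.Agent.N071T.Diffeo
import Vale.Agent.N071T.Tails
import Mathlib.Analysis.Complex.Isometry

set_option linter.all false

/-!
# Transfer between the Euclidean plane and `ℂ`
-/

open MeasureTheory TopologicalSpace Topology Set Filter Metric
open scoped Distributions Gradient RealInnerProductSpace ContDiff ComplexConjugate

namespace Vale.Agent.N071T

open Vale.Agent.P071

section Generic

variable {E F : Type} [NormedAddCommGroup E] [InnerProductSpace ℝ E] [FiniteDimensional ℝ E]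
  [CompleteSpace E] [MeasurableSpace E] [BorelSpace E]
  [NormedAddCommGroup F] [InnerProductSpace ℝ F] [FiniteDimensional ℝ F]
  [CompleteSpace F] [MeasurableSpace F] [BorelSpace F]

structure H1g (Ω : Set E) (v : E → ℝ) (G : E → E) : Prop where
  fn : MemLp v 2 (volume.restrict Ω)
  grad : MemLp G 2 (volume.restrict Ω)
  weak : ∀ φ : E → ℝ, ContDiff ℝ ∞ φ → HasCompactSupport φ → tsupport φ ⊆ Ω →
    ∫ x in Ω, v x • ∇ φ x = -∫ x in Ω, φ x • G x

def Qg (Ω : Set E) : Set ℝ :=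
  {q : ℝ | ∃ v G, H1g Ω v G ∧ (¬ ∀ᵐ x ∂(volume.restrict Ω), v x = 0) ∧ ∫ x in Ω, v x = 0 ∧
    q = (∫ x in Ω, ‖G x‖ ^ 2) / ∫ x in Ω, v x ^ 2}

def Vg (Ω : Set E) : Set (E → ℝ) :=
  {u | ∃ G, H1g Ω u G ∧ ∀ v H, H1g Ω v H →
    ∫ x in Ω, ⟪G x, H x⟫ = sInf (Qg Ω) * ∫ x in Ω, u x * v x}

theorem gradient_comp (T : E ≃ₗᵢ[ℝ] F) (ψ : F → ℝ) (x : E) :
    ∇ (fun y => ψ (T y)) x = T.symm (∇ ψ (T x)) := by
  refine ext_inner_right ℝ fun y => ?_
  rw [inner_gradient_left, ← T.inner_map_map, T.apply_symm_apply, inner_gradient_left]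
  have := T.toContinuousLinearEquiv.comp_right_fderiv (f := ψ) (x := x)
  exact congrArg (fun L : E →L[ℝ] ℝ => L y) this

theorem mp (T : E ≃ₗᵢ[ℝ] F) (Ω : Set F) :
    MeasurePreserving T (volume.restrict (T ⁻¹' Ω)) (volume.restrict Ω) :=
  T.measurePreserving.restrict_preimage_emb T.toHomeomorph.measurableEmbedding Ω

theorem int_comp {G : Type} [NormedAddCommGroup G] [NormedSpace ℝ G] (T : E ≃ₗᵢ[ℝ] F) (Ω : Set F)
    (f : F → G) : ∫ x in T ⁻¹' Ω, f (T x) = ∫ y in Ω, f y :=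
  T.measurePreserving.setIntegral_preimage_emb T.toHomeomorph.measurableEmbedding f Ω

theorem ae_comp (T : E ≃ₗᵢ[ℝ] F) (Ω : Set F) (p : F → Prop) :
    (∀ᵐ x ∂(volume.restrict (T ⁻¹' Ω)), p (T x)) ↔ ∀ᵐ y ∂(volume.restrict Ω), p y := by
  rw [← (mp T Ω).map_eq]
  exact (T.toHomeomorph.measurableEmbedding.ae_map_iff).symm

theorem H1g.comp (T : E ≃ₗᵢ[ℝ] F) {Ω : Set F} {v : F → ℝ} {G : F → F} (h : H1g Ω v G) :
    H1g (T ⁻¹' Ω) (fun x => v (T x)) (fun x => T.symm (G (T x))) := by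
  refine ⟨h.fn.comp_measurePreserving (mp T Ω), ?_, fun φ h1 h2 h3 => ?_⟩
  · exact (T.symm.toContinuousLinearEquiv : F →L[ℝ] E).comp_memLp'
      (h.grad.comp_measurePreserving (mp T Ω))
  · have k1 : ContDiff ℝ ∞ (fun y => φ (T.symm y)) := h1.comp T.symm.contDiff
    have k2 : HasCompactSupport (fun y => φ (T.symm y)) :=
      h2.comp_homeomorph T.symm.toHomeomorph
    have k3 : tsupport (fun y => φ (T.symm y)) ⊆ Ω := by
      intro y hy
      have : T.symm y ∈ tsupport φ :=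
        tsupport_comp_subset_preimage φ T.symm.continuous hy
      simpa using h3 this
    have k4 := h.weak _ k1 k2 k3
    have e1 : ∀ x, ∇ φ x = T.symm (∇ (fun y => φ (T.symm y)) (T x)) := by
      intro x
      rw [← gradient_comp T (fun y => φ (T.symm y)) x]
      simp
    have ic : ∀ f : F → F, T.symm (∫ y in Ω, f y) = ∫ y in Ω, T.symm (f y) := fun f =>
      (T.symm.toLinearIsometry.integral_comp_comm f).symm
    have e2 : ∫ x in T ⁻¹' Ω, v (T x) • ∇ φ x =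
        T.symm (∫ y in Ω, v y • ∇ (fun y => φ (T.symm y)) y) := by
      rw [ic, ← int_comp T]
      refine integral_congr_ae (Eventually.of_forall fun x => ?_)
      simp [e1 x]
    have e3 : ∫ x in T ⁻¹' Ω, φ x • T.symm (G (T x)) =
        T.symm (∫ y in Ω, φ (T.symm y) • G y) := by
      rw [ic, ← int_comp T]
      refine integral_congr_ae (Eventually.of_forall fun x => ?_)
      simp
    rw [e2, e3, k4, map_neg]

theorem Qg_sub (T : E ≃ₗᵢ[ℝ] F) (Ω : Set F) : Qg Ω ⊆ Qg (T ⁻¹' Ω) := by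
  rintro q ⟨v, G, h1, h2, h3, rfl⟩
  refine ⟨_, _, h1.comp T, by rwa [ae_comp T Ω fun y => v y = 0], by rwa [int_comp T Ω v], ?_⟩
  rw [int_comp T Ω fun y => v y ^ 2, ← int_comp T Ω fun y => ‖G y‖ ^ 2]
  simp

theorem pre_pre (T : E ≃ₗᵢ[ℝ] F) (Ω : Set F) : T.symm ⁻¹' (T ⁻¹' Ω) = Ω := by
  ext; simp

theorem Qg_comp (T : E ≃ₗᵢ[ℝ] F) (Ω : Set F) : Qg (T ⁻¹' Ω) = Qg Ω := by
  refine Subset.antisymm ?_ (Qg_sub T Ω)
  have := Qg_sub T.symm (T ⁻¹' Ω)
  rwa [pre_pre] at this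

theorem Vg_comp (T : E ≃ₗᵢ[ℝ] F) {Ω : Set F} {u : F → ℝ} (hu : u ∈ Vg Ω) :
    (fun x => u (T x)) ∈ Vg (T ⁻¹' Ω) := by
  obtain ⟨G, h1, h2⟩ := hu
  refine ⟨_, h1.comp T, fun v H hv => ?_⟩
  have h3 := hv.comp T.symm
  rw [pre_pre] at h3
  have h4 := h2 _ _ h3
  rw [← int_comp T, ← int_comp T] at h4
  rw [Qg_comp]
  simp only [LinearIsometryEquiv.symm_apply_apply, LinearIsometryEquiv.symm_symm] at h4
  rw [← h4]
  refine integral_congr_ae (Eventually.of_forall fun x => ?_)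
  simp only
  rw [← T.inner_map_map, T.apply_symm_apply]

end Generic

section Cx

variable {Ω : Set ℂ}

theorem inner_C (w z : ℂ) : ⟪w, z⟫ = w.re * z.re + w.im * z.im := by
  simp [Complex.inner]; ring

theorem grad_re (φ : ℂ → ℝ) (z : ℂ) : (∇ φ z).re = px φ z := by
  rw [px, ← inner_gradient_left, inner_C]
  simp only [Complex.one_re, Complex.one_im, mul_one, mul_zero, add_zero]

theorem grad_im (φ : ℂ → ℝ) (z : ℂ) : (∇ φ z).im = py φ z := by
  rw [py, ← inner_gradient_left, inner_C]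
  simp only [Complex.I_re, Complex.I_im, mul_one, mul_zero, zero_add]

theorem test_memLp {φ : ℂ → ℝ} (h1 : ContDiff ℝ ∞ φ) (h2 : HasCompactSupport φ) :
    MemLp φ 2 (volume.restrict Ω) ∧ MemLp (∇ φ) 2 (volume.restrict Ω) := by
  refine ⟨(h1.continuous.memLp_of_hasCompactSupport h2).restrict Ω, ?_⟩
  have hc : Continuous (∇ φ) :=
    (InnerProductSpace.toDual ℝ ℂ).symm.continuous.comp (h1.continuous_fderiv (by simp))
  have hs : HasCompactSupport (∇ φ) :=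
    (h2.fderiv ℝ).comp_left (g := (InnerProductSpace.toDual ℝ ℂ).symm) (map_zero _)
  exact (hc.memLp_of_hasCompactSupport hs).restrict Ω

theorem weak_iff {v : ℂ → ℝ} {G : ℂ → ℂ} (hv : MemLp v 2 (volume.restrict Ω))
    (hG : MemLp G 2 (volume.restrict Ω)) {φ : ℂ → ℝ} (h1 : ContDiff ℝ ∞ φ)
    (h2 : HasCompactSupport φ) :
    (∫ x in Ω, v x • ∇ φ x = -∫ x in Ω, φ x • G x) ↔
      (∫ z in Ω, v z * px φ z = -∫ z in Ω, (G z).re * φ z) ∧
      (∫ z in Ω, v z * py φ z = -∫ z in Ω, (G z).im * φ z) := by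
  obtain ⟨k1, k2⟩ := test_memLp (Ω := Ω) h1 h2
  have i1 : Integrable (fun x => v x • ∇ φ x) (volume.restrict Ω) :=
    memLp_one_iff_integrable.1 (k2.smul hv)
  have i2 : Integrable (fun x => φ x • G x) (volume.restrict Ω) :=
    memLp_one_iff_integrable.1 (hG.smul k1)
  have a1 := Complex.reCLM.integral_comp_comm i1
  have a2 := Complex.reCLM.integral_comp_comm i2
  have a3 := Complex.imCLM.integral_comp_comm i1
  have a4 := Complex.imCLM.integral_comp_comm i2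
  simp only [Complex.reCLM_apply, Complex.imCLM_apply, Complex.smul_re, Complex.smul_im,
    smul_eq_mul, grad_re, grad_im] at a1 a2 a3 a4
  rw [Complex.ext_iff, Complex.neg_re, Complex.neg_im, ← a1, ← a2, ← a3, ← a4]
  simp only [mul_comm (φ _)]

theorem H1g.toC {v : ℂ → ℝ} {G : ℂ → ℂ} (h : H1g Ω v G) :
    IsH1 Ω v (fun z => (G z).re) (fun z => (G z).im) :=
  ⟨h.fn, Complex.reCLM.comp_memLp' h.grad, Complex.imCLM.comp_memLp' h.grad,
    fun φ h1 h2 h3 => ((weak_iff h.fn h.grad h1 h2).1 (h.weak φ h1 h2 h3)).1,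
    fun φ h1 h2 h3 => ((weak_iff h.fn h.grad h1 h2).1 (h.weak φ h1 h2 h3)).2⟩

theorem H1g.ofC {v gx gy : ℂ → ℝ} (h : IsH1 Ω v gx gy) :
    H1g Ω v (fun z => (gx z : ℂ) + gy z * Complex.I) := by
  have hG : MemLp (fun z => (gx z : ℂ) + gy z * Complex.I) 2 (volume.restrict Ω) :=
    (Complex.ofRealCLM.comp_memLp' h.gx_mem).add
      ((Complex.ofRealCLM.comp_memLp' h.gy_mem).mul_const Complex.I)
  refine ⟨h.v_mem, hG, fun φ h1 h2 h3 => (weak_iff h.v_mem hG h1 h2).2 ⟨?_, ?_⟩⟩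
  · simpa using h.weak_x φ h1 h2 h3
  · simpa using h.weak_y φ h1 h2 h3

theorem ne_iff_pos {v : ℂ → ℝ} (hv : MemLp v 2 (volume.restrict Ω)) :
    (¬ ∀ᵐ x ∂(volume.restrict Ω), v x = 0) ↔ 0 < ∫ z in Ω, v z ^ 2 := by
  have h1 := integral_eq_zero_iff_of_nonneg (f := fun z => v z ^ 2) (μ := volume.restrict Ω)
    (fun z => sq_nonneg _) hv.integrable_sq
  have h2 : 0 ≤ ∫ z in Ω, v z ^ 2 := integral_nonneg fun z => sq_nonneg _
  rw [h2.lt_iff_ne', Ne, h1]
  refine not_congr ⟨fun h => h.mono fun z hz => ?_, fun h => h.mono fun z hz => ?_⟩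
  · simp [hz]
  · simpa using hz

theorem normsq (w : ℂ) : ‖w‖ ^ 2 = w.re ^ 2 + w.im ^ 2 := by
  rw [Complex.sq_norm, Complex.normSq_apply]; ring

theorem mu_eq : sInf (Qg Ω) = muOne Ω := by
  unfold muOne
  congr 1
  ext q
  constructor
  · rintro ⟨v, G, h1, h2, h3, rfl⟩
    exact ⟨v, _, _, h1.toC, h3, (ne_iff_pos h1.fn).1 h2, by simp only [normsq]⟩
  · rintro ⟨v, gx, gy, h1, h2, h3, rfl⟩
    refine ⟨v, _, H1g.ofC h1, (ne_iff_pos h1.v_mem).2 h3, h2, ?_⟩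
    simp [normsq]

theorem Vg_iff {u : ℂ → ℝ} : u ∈ Vg Ω ↔ InV Ω u := by
  constructor
  · rintro ⟨G, h1, h2⟩
    refine ⟨_, _, h1.toC, fun v hx hy hv => ?_⟩
    have := h2 _ _ (H1g.ofC hv)
    rw [mu_eq] at this
    rw [← this]
    simp only [inner_C]
    simp
  · rintro ⟨gx, gy, h1, h2⟩
    refine ⟨_, H1g.ofC h1, fun v H hv => ?_⟩
    rw [mu_eq, ← h2 _ _ _ hv.toC]
    simp only [inner_C]
    simp

end Cx

end Vale.Agent.N071T
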